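import Vale.Agent.P262.H654.FieldC

/-!
# P262, milestone 1, FIELD part P5: the change of the hidden part of the cut-off field

Two payoffs `g`, `g'` (complements of the body before and after a rotation of the body, read at
the same labels). The excess `g - fl L g` changes in mean, at every label, by at most
`rotA L g g'`: at a killed label the change of the payoff, at an alive label
`24 c (min q (Δ / max D c) + min q' (Δ / max D c))`.
-/

set_option linter.all false

open MeasureTheory ProbabilityTheory Set
open scoped ENNReal RealInnerProductSpace Classical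

namespace Vale.Agent.P262.H712

open Vale.Agent.P262.H395 (mix)
open Vale.Agent.P262.H847 (UI)
open Vale.Agent.P262.H654

/-! ### scalars -/

/-- the change of one node -/
noncomputable def nod (c x y : ℝ) : ℝ := (phi c y - phi c x) * x + (1 - phi c y) * (y - x)

section scalar

variable {c x y : ℝ}

lemma sg_le_two (hc' : c ≤ 1 / 16) : sg c ≤ 2 := by
  unfold sg
  rw [div_le_iff₀ (by linarith)]
  linarith

lemma nod_le (hc : 0 ≤ c) (hc' : c ≤ 1 / 16) (hx : 0 ≤ x) (h : x ≤ y) :
    nod c x y ≤ 3 * c * ((y - x) / max y c) := by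
  rcases le_or_gt y c with hyc | hyc
  · rw [max_eq_right hyc]
    unfold nod
    rw [phi_zero hyc, phi_zero (h.trans hyc)]
    rcases hc.eq_or_lt with rfl | hc0
    · have : x = y := by linarith
      subst this; simp
    · have e1 : 3 * c * ((y - x) / c) = 3 * (y - x) := by field_simp
      rw [e1]
      linarith
  · rw [max_eq_left hyc.le]
    have hy0 : 0 < y := lt_of_le_of_lt hc hyc
    have h1 := phi_diff hc hc' hx h
    have h2 := one_sub_phi_mul hc hc' hy0.le
    have h3 : (1 - phi c y) * (y - x) = ((1 - phi c y) * y) * ((y - x) / y) := by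
      field_simp
    have h4 : 0 ≤ (y - x) / y := div_nonneg (by linarith) hy0.le
    have h5 : ((1 - phi c y) * y) * ((y - x) / y) ≤ c * ((y - x) / y) :=
      mul_le_mul_of_nonneg_right h2 h4
    have h6 : sg c * (c * ((y - x) / y)) ≤ 2 * (c * ((y - x) / y)) :=
      mul_le_mul_of_nonneg_right (sg_le_two hc') (mul_nonneg hc h4)
    unfold nod
    rw [h3]
    linarith

lemma nod_nonneg (hc : 0 ≤ c) (hc' : c ≤ 1 / 16) (hx : 0 ≤ x) (h : x ≤ y) : 0 ≤ nod c x y := by
  unfold nod
  have h1 := phi_mono hc hc' hx h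
  have h2 := phi_le_one hc hc' (hx.trans h)
  have h3 := mul_nonneg (sub_nonneg.mpr h1) hx
  have h4 := mul_nonneg (sub_nonneg.mpr h2) (sub_nonneg.mpr h)
  linarith

lemma nod_zero (hc' : c ≤ 1 / 16) (hx : 1 / 8 ≤ x) (h : x ≤ y) : nod c x y = 0 := by
  unfold nod
  rw [phi_self hc' hx, phi_self hc' (hx.trans h)]
  ring

/-- **one node**: `F ≤ F'` values of the field for the payoffs `g ≤ G`, `D` the mean of `G`,
`q` the mean of `1 - g`. -/
lemma nod_bd {F F' D q Δ : ℝ} (hc : 0 ≤ c) (hc' : c ≤ 1 / 16) (hF : 0 ≤ F) (h : F ≤ F')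
    (hΔ : F' - F ≤ 2 * Δ) (hD : D ≤ F' + c) (hq : 1 - q ≤ F + c) (hq0 : 0 ≤ q) :
    nod c F F' ≤ 24 * (c * min q (Δ / max D c)) := by
  have hΔ0 : 0 ≤ Δ := by linarith
  have hm0 : 0 ≤ Δ / max D c := div_nonneg hΔ0 (hc.trans (le_max_right _ _))
  rcases le_or_gt (1 / 8) F with h8 | h8
  · rw [nod_zero hc' h8 h]
    have := mul_nonneg hc (le_min hq0 hm0)
    linarith
  · have hq2 : 1 / 2 ≤ q := by linarith
    have h1 := nod_le hc hc' hF h
    rcases hc.eq_or_lt with rfl | hc0
    · simpa using h1
    have hM : 0 < max F' c := lt_of_lt_of_le hc0 (le_max_right _ _)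
    have hM2 : 0 < max D c := lt_of_lt_of_le hc0 (le_max_right _ _)
    have h2 : max D c ≤ 2 * max F' c := by
      have e1 := le_max_left F' c
      have e2 := le_max_right F' c
      apply max_le <;> linarith
    have h3 : (F' - F) / max F' c ≤ 1 := by
      rw [div_le_one hM]
      have e1 := le_max_left F' c
      linarith
    have h4 : (F' - F) / max F' c ≤ 4 * (Δ / max D c) := by
      rw [div_le_iff₀ hM]
      have e3 : 4 * (Δ / max D c) * max F' c = 2 * Δ * ((2 * max F' c) / max D c) := by ring
      rw [e3]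
      have e4 : 1 ≤ (2 * max F' c) / max D c := by
        rw [le_div_iff₀ hM2, one_mul]; exact h2
      nlinarith
    have h5 : (F' - F) / max F' c ≤ 4 * min 1 (Δ / max D c) := by
      rcases le_total 1 (Δ / max D c) with h | h
      · rw [min_eq_left h]; linarith
      · rw [min_eq_right h]; exact h4
    have h6 : min 1 (Δ / max D c) ≤ 2 * min q (Δ / max D c) := by
      rcases le_total q (Δ / max D c) with h | h
      · rw [min_eq_left h]
        exact (min_le_left _ _).trans (by linarith)
      · rw [min_eq_right h]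
        exact (min_le_right _ _).trans (by linarith)
    have h7 : 3 * c * ((F' - F) / max F' c) ≤ 3 * c * (4 * (2 * min q (Δ / max D c))) := by
      apply mul_le_mul_of_nonneg_left _ (by positivity)
      linarith
    calc nod c F F' ≤ _ := h1
      _ ≤ _ := h7
      _ = _ := by ring

end scalar

variable {E : Type*} [NormedAddCommGroup E] [InnerProductSpace ℝ E] [FiniteDimensional ℝ E]
  [MeasurableSpace E] [BorelSpace E]

variable {c0 : ℝ} {p : Lev E} {L L' : List (Lev E)} {g g' : E → ℝ} {W W' : Submodule ℝ E} {x y : E}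

/-- the two payoffs together -/
noncomputable def gm (g g' : E → ℝ) (x : E) : ℝ := max (g x) (g' x)

/-- the change of the payoff in the fibre -/
noncomputable def dl (W : Submodule ℝ E) (g g' : E → ℝ) (x : E) : ℝ := fr W (fun y => |g' y - g y|) x

/-- the alive mass in the fibre -/
noncomputable def ql (W : Submodule ℝ E) (g : E → ℝ) (x : E) : ℝ := fr W (fun y => 1 - g y) x

/-- the charge of an alive label -/
noncomputable def xx (p : Lev E) (g g' : E → ℝ) (x : E) : ℝ :=
  p.c x * (min (ql p.W g x) (dl p.W g g' x / max (fr p.W (gm g g') x) (p.c x))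
    + min (ql p.W g' x) (dl p.W g g' x / max (fr p.W (gm g g') x) (p.c x)))

/-- the total charge of a change of the payoff -/
noncomputable def rotA : List (Lev E) → (E → ℝ) → (E → ℝ) → E → ℝ
  | [], _, _ => fun _ => 0
  | p :: L, g, g' => fun x => if x ∈ p.Z then dl p.W g g' x else 24 * xx p g g' x + rotA L g g' x

/-- the hidden mass is small at all labels: `fr g ≤ fr (fl g) + c` at every alive label -/
def HidOK : List (Lev E) → (E → ℝ) → Prop
  | [], _ => True
  | p :: L, g => (∀ x, x ∉ p.Z → fr p.W g x ≤ fr p.W (fl L g) x + p.c x) ∧ HidOK L g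

lemma UI.gm (hg : UI g) (hg' : UI g') : UI (gm g g') := Vale.Agent.P262.H654.UI.max hg hg'

lemma UI.compl (hg : UI g) : UI fun x => 1 - g x :=
  ⟨measurable_const.sub hg.meas, fun x => by linarith [hg.le_one x],
    fun x => by linarith [hg.nonneg x]⟩

lemma UI.absdiff (hg : UI g) (hg' : UI g') : UI fun x => |g' x - g x| :=
  ⟨(hg'.meas.sub hg.meas).abs, fun x => abs_nonneg _, fun x => by
    have h1 := hg.nonneg x
    have h2 := hg.le_one x
    have h3 := hg'.nonneg x
    have h4 := hg'.le_one x
    rw [abs_le]; constructor <;> linarith⟩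

lemma UI.dl (hg : UI g) (hg' : UI g') (W : Submodule ℝ E) : UI (dl W g g') :=
  Vale.Agent.P262.H654.UI.fr (UI.absdiff hg hg') W

lemma UI.ql (hg : UI g) (W : Submodule ℝ E) : UI (ql W g) :=
  Vale.Agent.P262.H654.UI.fr (UI.compl hg) W

lemma xx_nonneg (hp : LevOK c0 p) (hg : UI g) (hg' : UI g') (x : E) : 0 ≤ xx p g g' x := by
  unfold xx
  have h1 := (UI.ql hg p.W).nonneg x
  have h2 := (UI.ql hg' p.W).nonneg x
  have h3 := (UI.dl hg hg' p.W).nonneg x
  have h4 := hp.nonneg x
  have h5 : 0 ≤ dl p.W g g' x / max (fr p.W (gm g g') x) (p.c x) :=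
    div_nonneg h3 (h4.trans (le_max_right _ _))
  exact mul_nonneg h4 (add_nonneg (le_min h1 h5) (le_min h2 h5))

lemma xx_le (hp : LevOK c0 p) (hg : UI g) (hg' : UI g') (hx : x ∉ p.Z) : xx p g g' x ≤ 2 * c0 := by
  unfold xx
  have h1 := (UI.ql hg p.W).le_one x
  have h2 := (UI.ql hg' p.W).le_one x
  have h4 := hp.nonneg x
  have h5 := hp.le x hx
  have h6 : min (ql p.W g x) (dl p.W g g' x / max (fr p.W (gm g g') x) (p.c x)) ≤ 1 :=
    (min_le_left _ _).trans h1
  have h7 : min (ql p.W g' x) (dl p.W g g' x / max (fr p.W (gm g g') x) (p.c x)) ≤ 1 :=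
    (min_le_left _ _).trans h2
  nlinarith

lemma measurable_xx (hp : LevOK c0 p) (hg : UI g) (hg' : UI g') : Measurable (xx p g g') := by
  have h1 := (UI.ql hg p.W).meas
  have h2 := (UI.ql hg' p.W).meas
  have h3 := (UI.dl hg hg' p.W).meas
  have h4 := hp.meas
  have h5 := (Vale.Agent.P262.H654.UI.fr (UI.gm hg hg') p.W).meas
  have h6 : Measurable fun x => dl p.W g g' x / max (fr p.W (gm g g') x) (p.c x) :=
    h3.div (h5.max h4)
  exact h4.mul ((h1.min h6).add (h2.min h6))

lemma rotA_cons : rotA (p :: L) g g' x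
    = if x ∈ p.Z then dl p.W g g' x else 24 * xx p g g' x + rotA L g g' x := rfl

lemma rotA_nonneg (hL : Good c0 L) (hg : UI g) (hg' : UI g') (x : E) : 0 ≤ rotA L g g' x := by
  induction L with
  | nil => exact le_rfl
  | cons p L ih =>
    obtain ⟨hp, hab, hL⟩ := hL
    rw [rotA_cons]
    split_ifs with h
    · exact (UI.dl hg hg' p.W).nonneg x
    · have := xx_nonneg hp hg hg' x
      have := ih hL
      linarith

lemma rotA_bd (hL : Good c0 L) (hg : UI g) (hg' : UI g') :
    Measurable (rotA L g g') ∧ ∃ C : ℝ, 0 ≤ C ∧ ∀ x, rotA L g g' x ≤ C := by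
  induction L with
  | nil => exact ⟨measurable_const, 0, le_rfl, fun _ => le_rfl⟩
  | cons p L ih =>
    obtain ⟨hp, hab, hL⟩ := hL
    obtain ⟨m, C, hC0, hC⟩ := ih hL
    refine ⟨Measurable.ite hp.measZ (UI.dl hg hg' p.W).meas
      (((measurable_xx hp hg hg').const_mul 24).add m), 1 + 48 * |c0| + C, by positivity, ?_⟩
    intro x
    rw [rotA_cons]
    split_ifs with h
    · have := (UI.dl hg hg' p.W).le_one x
      have := abs_nonneg c0
      linarith
    · have h1 := xx_le hp hg hg' h
      have h2 := hC x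
      have h3 := le_abs_self c0
      linarith

lemma Bd.rotA (hL : Good c0 L) (hg : UI g) (hg' : UI g') : Bd (rotA L g g') := by
  obtain ⟨m, C, hC0, hC⟩ := rotA_bd hL hg hg'
  exact ⟨m, C, fun x => by rw [abs_of_nonneg (rotA_nonneg hL hg hg' x)]; exact hC x⟩

/-- the excess of the payoff over the field -/
noncomputable def ex (L : List (Lev E)) (g : E → ℝ) (x : E) : ℝ := g x - fl L g x

lemma Bd.ex (hL : Good c0 L) (hc : c0 ≤ 1 / 16) (hg : UI g) : Bd (ex L g) :=
  (Bd.of_UI hg).sub (Bd.of_UI (fl_UI hL hc hg))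

lemma ex_abs_le (hL : Good c0 L) (hc : c0 ≤ 1 / 16) (hg : UI g) (x : E) : |ex L g x| ≤ 1 := by
  have h1 := hg.nonneg x
  have h2 := hg.le_one x
  have h3 := (fl_UI hL hc hg).nonneg x
  have h4 := (fl_UI hL hc hg).le_one x
  unfold Vale.Agent.P262.H712.ex
  rw [abs_le]; constructor <;> linarith

/-- one node, integrated -/
lemma fr_node_le (hp : LevOK c0 p) (hL : Good c0 L) (hc : c0 ≤ 1 / 16) (hg : UI g) (hG : UI g')
    (h : ∀ x, g x ≤ g' x) (hx : x ∉ p.Z) :
    fr p.W (fun y => |(1 - phi (p.c x) (fr p.W (fl L g) x)) * fl L g y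
        - (1 - phi (p.c x) (fr p.W (fl L g') x)) * fl L g' y|) x
      ≤ nod (p.c x) (fr p.W (fl L g) x) (fr p.W (fl L g') x) := by
  have u := fl_UI hL hc hg
  have u' := fl_UI hL hc hG
  have hle := fl_mono hL hc hg hG h
  set F := fr p.W (fl L g) x with hF
  set F' := fr p.W (fl L g') x with hF'
  have hFF : F ≤ F' := fr_mono (Bd.of_UI u) (Bd.of_UI u') hle x
  have hF0 : 0 ≤ F := fr_nonneg u.nonneg x
  have hcx := (hp.le x hx).trans hc
  have hc0 := hp.nonneg x
  have m1 := phi_mono hc0 hcx hF0 hFF
  have m2 := phi_le_one hc0 hcx (hF0.trans hFF)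
  have b1 : Bd fun y => |(1 - phi (p.c x) F) * fl L g y - (1 - phi (p.c x) F') * fl L g' y| :=
    (((Bd.of_UI u).const_mul _).sub ((Bd.of_UI u').const_mul _)).abs
  have b2 : Bd fun y => (phi (p.c x) F' - phi (p.c x) F) * fl L g y
      + (1 - phi (p.c x) F') * (fl L g' y - fl L g y) :=
    ((Bd.of_UI u).const_mul _).add (((Bd.of_UI u').sub (Bd.of_UI u)).const_mul _)
  refine (fr_mono b1 b2 (fun y => ?_) x).trans_eq ?_
  · have h1 := u.nonneg y
    have h2 := hle y
    have h3 : (0:ℝ) ≤ (phi (p.c x) F' - phi (p.c x) F) * fl L g y :=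
      mul_nonneg (by linarith) h1
    have h4 : (0:ℝ) ≤ (1 - phi (p.c x) F') * (fl L g' y - fl L g y) :=
      mul_nonneg (by linarith) (by linarith)
    rw [abs_le]
    constructor <;> nlinarith
  · rw [fr_add ((Bd.of_UI u).const_mul _) (((Bd.of_UI u').sub (Bd.of_UI u)).const_mul _),
      fr_const_mul, fr_const_mul, fr_sub (Bd.of_UI u') (Bd.of_UI u)]
    rfl

lemma one_sub_fr (hg : UI g) (W : Submodule ℝ E) (x : E) : 1 - ql W g x = fr W g x := by
  unfold ql
  rw [fr_sub (Bd.const 1) (Bd.of_UI hg), fr_const]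
  ring

/-- **(P5)** the excess changes by at most the total charge -/
theorem fr_ex_sub_le (hL : Good c0 L) (hc0 : 0 ≤ c0) (hc : c0 ≤ 1 / 16)
    (hs : sg c0 ^ L.length ≤ 2) (hg : UI g) (hg' : UI g') (h1 : HidOK L g) (h2 : HidOK L g')
    (h3 : HidOK L (gm g g')) (hW : ∀ p ∈ L, W ≤ p.W) (x : E) :
    fr W (fun y => |ex L g' y - ex L g y|) x ≤ fr W (rotA L g g') x := by
  induction L generalizing W x with
  | nil =>
    simp only [ex, fl_nil, sub_self, abs_zero]
    exact le_rfl
  | cons p L ih =>
    have hLL := hL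
    obtain ⟨hp, hab, hL⟩ := hL
    obtain ⟨k1, h1⟩ := h1
    obtain ⟨k2, h2⟩ := h2
    obtain ⟨k3, h3⟩ := h3
    have hWp : W ≤ p.W := hW p List.mem_cons_self
    have hs' : sg c0 ^ L.length ≤ 2 := by
      refine le_trans ?_ hs
      rw [List.length_cons]
      exact pow_le_pow_right₀ (one_le_sg hc0 hc) (Nat.le_succ _)
    have u := fl_UI hL hc hg
    have u' := fl_UI hL hc hg'
    have hG := UI.gm hg hg'
    have U := fl_UI hL hc hG
    have bL : Bd fun y => |ex (p :: L) g' y - ex (p :: L) g y| :=
      ((Bd.ex hLL hc hg').sub (Bd.ex hLL hc hg)).abs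
    have bR := Bd.rotA hLL hg hg'
    rw [← fr_tower hWp bL x, ← fr_tower hWp bR x]
    refine fr_mono (bL.fr _) (bR.fr _) (fun y => ?_) x
    have bRL := Bd.rotA hL hg hg'
    -- both sides at the label of `y`
    have inZ : ∀ z, (mix p.W y z ∈ p.Z ↔ y ∈ p.Z) := by
      intro z
      have e1 : mix p.W y z = y + (mix p.W y z - y) := by abel
      have e2 : mix p.W y z - y ∈ p.Wᗮ := by
        rw [← Submodule.starProjection_apply_eq_zero_iff, map_sub, H395.starProjection_mix,
          sub_self]
      rw [e1]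
      exact hp.invZ y _ e2
    have ic : ∀ z, p.c (mix p.W y z) = p.c y := fun z => hp.inv.mix y z
    by_cases hz : y ∈ p.Z
    · -- killed label
      unfold fr
      apply le_of_eq
      have e1 : ∀ z, |ex (p :: L) g' (mix p.W y z) - ex (p :: L) g (mix p.W y z)|
          = |g' (mix p.W y z) - g (mix p.W y z)| := by
        intro z
        unfold Vale.Agent.P262.H712.ex
        rw [fl_cons, fl_cons, if_pos ((inZ z).mpr hz), if_pos ((inZ z).mpr hz)]
        congr 1; ring
      have e2 : ∀ z, Vale.Agent.P262.H712.rotA (p :: L) g g' (mix p.W y z) = dl p.W g g' y := by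
        intro z
        rw [rotA_cons, if_pos ((inZ z).mpr hz)]
        exact (invR_fr p.W _).mix y z
      simp_rw [e1, e2]
      simp only [integral_const, probReal_univ, smul_eq_mul, one_mul]
      rfl
    · -- alive label
      have hzz : ∀ z, mix p.W y z ∉ p.Z := fun z hh => hz ((inZ z).mp hh)
      set F := fr p.W (fl L g) y with hF
      set F' := fr p.W (fl L g') y with hF'
      set H := fr p.W (fl L (gm g g')) y with hH
      have iF : ∀ z, fr p.W (fl L g) (mix p.W y z) = F := fun z => (invR_fr p.W _).mix y z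
      have iF' : ∀ z, fr p.W (fl L g') (mix p.W y z) = F' := fun z => (invR_fr p.W _).mix y z
      have cx := hp.nonneg y
      have cc := (hp.le y hz).trans hc
      -- pointwise bound of the left side
      set A : E → ℝ := fun z => |ex L g' z - ex L g z| with hA
      set B1 : E → ℝ := fun z => |(1 - phi (p.c y) F) * fl L g z
        - (1 - phi (p.c y) H) * fl L (gm g g') z| with hB1
      set B2 : E → ℝ := fun z => |(1 - phi (p.c y) F') * fl L g' z
        - (1 - phi (p.c y) H) * fl L (gm g g') z| with hB2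
      have bA : Bd A := ((Bd.ex hL hc hg').sub (Bd.ex hL hc hg)).abs
      have bB1 : Bd B1 := (((Bd.of_UI u).const_mul _).sub ((Bd.of_UI U).const_mul _)).abs
      have bB2 : Bd B2 := (((Bd.of_UI u').const_mul _).sub ((Bd.of_UI U).const_mul _)).abs
      have s1 : fr p.W (fun z => |ex (p :: L) g' z - ex (p :: L) g z|) y
          ≤ fr p.W (fun z => A z + (B1 z + B2 z)) y := by
        unfold fr
        refine integral_mono (bL.mixr p.W y).integrable
          ((bA.add (bB1.add bB2)).mixr p.W y).integrable fun z => ?_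
        show |ex (p :: L) g' (mix p.W y z) - ex (p :: L) g (mix p.W y z)|
          ≤ A (mix p.W y z) + (B1 (mix p.W y z) + B2 (mix p.W y z))
        set w := mix p.W y z with hw
        have e1 : ex (p :: L) g' w = ex L g' w + (1 - phi (p.c y) F') * fl L g' w := by
          unfold Vale.Agent.P262.H712.ex
          rw [fl_cons, if_neg (hzz z), iF', ic]; ring
        have e2 : ex (p :: L) g w = ex L g w + (1 - phi (p.c y) F) * fl L g w := by
          unfold Vale.Agent.P262.H712.ex
          rw [fl_cons, if_neg (hzz z), iF, ic]; ring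
        rw [e1, e2]
        have e3 : ex L g' w + (1 - phi (p.c y) F') * fl L g' w
            - (ex L g w + (1 - phi (p.c y) F) * fl L g w)
            = (ex L g' w - ex L g w)
              + (-((1 - phi (p.c y) F) * fl L g w - (1 - phi (p.c y) H) * fl L (gm g g') w)
              + ((1 - phi (p.c y) F') * fl L g' w - (1 - phi (p.c y) H) * fl L (gm g g') w)) := by
          ring
        rw [e3]
        refine (abs_add_le _ _).trans (add_le_add le_rfl ?_)
        refine (abs_add_le _ _).trans_eq ?_
        rw [abs_neg]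
      have s2 : fr p.W (fun z => A z + (B1 z + B2 z)) y = fr p.W A y + (fr p.W B1 y + fr p.W B2 y) := by
        rw [fr_add bA (bB1.add bB2), fr_add bB1 bB2]
      have n1 := fr_node_le (x := y) hp hL hc hg hG (fun z => le_max_left _ _) hz
      have n2 := fr_node_le (x := y) hp hL hc hg' hG (fun z => le_max_right _ _) hz
      have ihy := ih hL hs' h1 h2 h3 (W := p.W) (fun q hq => hab q hq) y
      -- scalar bounds
      have vG := vis_UI hL hc hG
      have d1 : H - F ≤ 2 * dl p.W g g' y := by
        have t1 := fr_fl_sub_le hL hc0 hc hg hG (fun z => le_max_left _ _) (W := p.W)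
          (fun q hq => hab q hq) y
        rw [fr_sub (Bd.of_UI U) (Bd.of_UI u)] at t1
        have t2 : fr p.W (fun z => vis L (gm g g') z * (gm g g' z - g z)) y ≤ dl p.W g g' y := by
          refine fr_mono ((Bd.of_UI vG).mul ((Bd.of_UI hG).sub (Bd.of_UI hg)))
            (Bd.of_UI (UI.absdiff hg hg')) (fun z => ?_) y
          have t3 : 0 ≤ gm g g' z - g z := by
            have : g z ≤ gm g g' z := le_max_left _ _
            linarith
          have t4 : gm g g' z - g z ≤ |g' z - g z| := by
            unfold gm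
            rcases le_total (g z) (g' z) with h | h
            · rw [max_eq_right h]; exact le_abs_self _
            · rw [max_eq_left h, sub_self]; exact abs_nonneg _
          calc vis L (gm g g') z * (gm g g' z - g z) ≤ 1 * (gm g g' z - g z) :=
                mul_le_mul_of_nonneg_right (vG.le_one z) t3
            _ ≤ _ := by rw [one_mul]; exact t4
        have t5 : 0 ≤ dl p.W g g' y := (UI.dl hg hg' p.W).nonneg y
        have t6 : 0 ≤ sg c0 ^ L.length := by
          have := one_le_sg hc0 hc
          positivity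
        calc H - F ≤ _ := t1
          _ ≤ sg c0 ^ L.length * dl p.W g g' y := mul_le_mul_of_nonneg_left t2 t6
          _ ≤ 2 * dl p.W g g' y := mul_le_mul_of_nonneg_right hs' t5
      have d2 : H - F' ≤ 2 * dl p.W g g' y := by
        have t1 := fr_fl_sub_le hL hc0 hc hg' hG (fun z => le_max_right _ _) (W := p.W)
          (fun q hq => hab q hq) y
        rw [fr_sub (Bd.of_UI U) (Bd.of_UI u')] at t1
        have t2 : fr p.W (fun z => vis L (gm g g') z * (gm g g' z - g' z)) y ≤ dl p.W g g' y := by
          refine fr_mono ((Bd.of_UI vG).mul ((Bd.of_UI hG).sub (Bd.of_UI hg')))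
            (Bd.of_UI (UI.absdiff hg hg')) (fun z => ?_) y
          have t3 : 0 ≤ gm g g' z - g' z := by
            have : g' z ≤ gm g g' z := le_max_right _ _
            linarith
          have t4 : gm g g' z - g' z ≤ |g' z - g z| := by
            unfold gm
            rcases le_total (g z) (g' z) with h | h
            · rw [max_eq_right h, sub_self]; exact abs_nonneg _
            · rw [max_eq_left h, abs_sub_comm]; exact le_abs_self _
          calc vis L (gm g g') z * (gm g g' z - g' z) ≤ 1 * (gm g g' z - g' z) :=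
                mul_le_mul_of_nonneg_right (vG.le_one z) t3
            _ ≤ _ := by rw [one_mul]; exact t4
        have t5 : 0 ≤ dl p.W g g' y := (UI.dl hg hg' p.W).nonneg y
        have t6 : 0 ≤ sg c0 ^ L.length := by
          have := one_le_sg hc0 hc
          positivity
        calc H - F' ≤ _ := t1
          _ ≤ sg c0 ^ L.length * dl p.W g g' y := mul_le_mul_of_nonneg_left t2 t6
          _ ≤ 2 * dl p.W g g' y := mul_le_mul_of_nonneg_right hs' t5
      have F0 : 0 ≤ F := fr_nonneg u.nonneg y
      have F0' : 0 ≤ F' := fr_nonneg u'.nonneg y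
      have l1 : F ≤ H := fr_mono (Bd.of_UI u) (Bd.of_UI U)
        (fl_mono hL hc hg hG fun z => le_max_left _ _) y
      have l2 : F' ≤ H := fr_mono (Bd.of_UI u') (Bd.of_UI U)
        (fl_mono hL hc hg' hG fun z => le_max_right _ _) y
      have q1 : 1 - ql p.W g y ≤ F + p.c y := by rw [one_sub_fr hg]; exact k1 y hz
      have q2 : 1 - ql p.W g' y ≤ F' + p.c y := by rw [one_sub_fr hg']; exact k2 y hz
      have nb1 := nod_bd cx cc F0 l1 d1 (k3 y hz) q1 ((UI.ql hg p.W).nonneg y)
      have nb2 := nod_bd cx cc F0' l2 d2 (k3 y hz) q2 ((UI.ql hg' p.W).nonneg y)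
      -- the right side
      have e5 : fr p.W (Vale.Agent.P262.H712.rotA (p :: L) g g') y
          = 24 * xx p g g' y + fr p.W (Vale.Agent.P262.H712.rotA L g g') y := by
        have ix : ∀ z, xx p g g' (mix p.W y z) = xx p g g' y := by
          intro z
          unfold xx ql dl
          rw [ic, (invR_fr p.W (fun y => 1 - g y)).mix y z,
            (invR_fr p.W (fun y => 1 - g' y)).mix y z,
            (invR_fr p.W (fun y => |g' y - g y|)).mix y z, (invR_fr p.W (gm g g')).mix y z]
        have e6 : ∀ z, Vale.Agent.P262.H712.rotA (p :: L) g g' (mix p.W y z)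
            = 24 * xx p g g' y + Vale.Agent.P262.H712.rotA L g g' (mix p.W y z) := by
          intro z
          rw [rotA_cons, if_neg (hzz z), ix]
        have e7 : fr p.W (Vale.Agent.P262.H712.rotA (p :: L) g g') y
            = ∫ z, (24 * xx p g g' y + Vale.Agent.P262.H712.rotA L g g' (mix p.W y z))
              ∂(stdGaussian E) := by
          unfold fr
          simp_rw [e6]
        rw [e7, integral_add (integrable_const _) (bRL.mixr p.W y).integrable]
        simp only [integral_const, probReal_univ, smul_eq_mul, one_mul]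
        rfl
      rw [e5]
      have e8 : xx p g g' y = p.c y * min (ql p.W g y)
          (dl p.W g g' y / max (fr p.W (gm g g') y) (p.c y))
          + p.c y * min (ql p.W g' y) (dl p.W g g' y / max (fr p.W (gm g g') y) (p.c y)) := by
        unfold xx; ring
      rw [e8]
      have n1' : fr p.W B1 y ≤ nod (p.c y) F H := n1
      have n2' : fr p.W B2 y ≤ nod (p.c y) F' H := n2
      calc _ ≤ fr p.W A y + (fr p.W B1 y + fr p.W B2 y) := s1.trans_eq s2
        _ ≤ _ := by linarith

end Vale.Agent.P262.H712
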