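import Vale.Agent.P262.H712.FieldSoft
import Vale.Agent.P262.H852.Slice

/-!
# P262, milestone 1, FIELD part F4, main theorems
-/

set_option linter.all false

open MeasureTheory ProbabilityTheory Set
open scoped ENNReal RealInnerProductSpace Classical

namespace Vale.Agent.P262.H712

open Vale.Agent.P262.H395 (mix)
open Vale.Agent.P262.H847 (UI)
open Vale.Agent.P262.H654
open Vale.Agent.P262.H941 (LL LL_mono LL_nonneg LL_zero)

variable {E : Type*} [NormedAddCommGroup E] [InnerProductSpace ℝ E] [FiniteDimensional ℝ E]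
  [MeasurableSpace E] [BorelSpace E]

variable {c0 : ℝ} {p : Lev E} {L L' L1 L2 : List (Lev E)} {g g' : E → ℝ}
  {W W' : Submodule ℝ E} {x y : E}

/-- **the displaced part of the excess** -/
theorem fr_ex_mul_le (hL : Good c0 L) (hc : c0 ≤ 1 / 16) (hg : UI g) (hk : HidOK L g)
    {r τ : ℝ} (hr : 0 ≤ r) (hτ : 0 ≤ τ)
    (hPr : ∀ p ∈ L, ∀ x, x ∉ p.Z → ‖p.W.starProjection x‖ ≤ r)
    (hcr : ∀ p ∈ L, ∀ x, x ∉ p.Z → Real.exp (-r ^ 2) ≤ p.c x)
    {e1 e2 : E} (he1 : ‖e1‖ ≤ 1) (he2 : ‖e2‖ ≤ 1) {ω : E → ℝ} (hωb : Bd ω)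
    (hω0 : ∀ y, 0 ≤ ω y) (hω : ∀ y, ω y ≤ τ * (|⟪e1, y⟫| + |⟪e2, y⟫|))
    (hK : ∀ y, (1 - g y) * ω y ≤ (1 - g y) * (2 * τ * r))
    (hW : ∀ p ∈ L, W ≤ p.W) (x : E) :
    fr W (fun y => |ex L g y| * ω y) x ≤ τ * (20 * r + 16) * fr W (rotB L g) x := by
  induction L generalizing W x with
  | nil =>
    have e : (fun y => |ex ([] : List (Lev E)) g y| * ω y) = fun _ => (0:ℝ) := by
      funext y; simp [ex]
    have e' : rotB ([] : List (Lev E)) g = fun _ => (0:ℝ) := rfl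
    rw [e, e', fr_const, mul_zero]
  | cons p L ih =>
    have hLL := hL
    obtain ⟨hp, hab, hL⟩ := hL
    obtain ⟨k1, hk⟩ := hk
    have hWp : W ≤ p.W := hW p List.mem_cons_self
    have u := fl_UI hL hc hg
    have bL : Bd fun y => |ex (p :: L) g y| * ω y := (Bd.ex hLL hc hg).abs.mul hωb
    have bR := Bd.rotB hLL hg
    rw [← fr_tower hWp bL x, ← fr_tower hWp bR x, ← fr_const_mul]
    refine fr_mono (bL.fr _) ((bR.fr _).const_mul _) (fun y => ?_) x
    have bRL := Bd.rotB hL hg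
    have inZ : ∀ z, (mix p.W y z ∈ p.Z ↔ y ∈ p.Z) := by
      intro z
      have e1 : mix p.W y z = y + (mix p.W y z - y) := by abel
      have e2 : mix p.W y z - y ∈ p.Wᗮ := by
        rw [← Submodule.starProjection_apply_eq_zero_iff, map_sub, H395.starProjection_mix,
          sub_self]
      rw [e1]
      exact hp.invZ y _ e2
    have ic : ∀ z, p.c (mix p.W y z) = p.c y := fun z => hp.inv.mix y z
    by_cases hz : y ∈ p.Z
    · -- killed label
      have bg : Bd fun z => (1 - g z) * (2 * τ * r) :=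
        ((Bd.const 1).sub (Bd.of_UI hg)).mul (Bd.const _)
      have s1 : fr p.W (fun z => |ex (p :: L) g z| * ω z) y
          ≤ fr p.W (fun z => (1 - g z) * (2 * τ * r)) y := by
        unfold fr
        refine integral_mono (bL.mixr p.W y).integrable (bg.mixr p.W y).integrable fun z => ?_
        show |ex (p :: L) g (mix p.W y z)| * ω (mix p.W y z) ≤ (1 - g (mix p.W y z)) * (2 * τ * r)
        have e1 : |ex (p :: L) g (mix p.W y z)| = 1 - g (mix p.W y z) := by
          unfold ex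
          rw [fl_cons, if_pos ((inZ z).mpr hz), abs_sub_comm,
            abs_of_nonneg (by linarith [hg.le_one (mix p.W y z)])]
        rw [e1]
        exact hK _
      have s2 : fr p.W (rotB (p :: L) g) y = fr p.W (fun z => 1 - g z) y := by
        unfold fr
        congr 1
        funext z
        rw [rotB_cons, if_pos ((inZ z).mpr hz)]
      have s3 : fr p.W (fun z => (1 - g z) * (2 * τ * r)) y
          = 2 * τ * r * fr p.W (fun z => 1 - g z) y := by
        rw [← fr_const_mul]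
        congr 1; funext z; ring
      rw [s2]
      refine s1.trans ?_
      rw [s3]
      have h1 : 0 ≤ fr p.W (fun z => 1 - g z) y := (UI.ql hg p.W).nonneg y
      apply mul_le_mul_of_nonneg_right _ h1
      nlinarith [mul_nonneg hτ hr]
    · -- alive label
      have hzz : ∀ z, mix p.W y z ∉ p.Z := fun z hh => hz ((inZ z).mp hh)
      set F := fr p.W (fl L g) y with hF
      have iF : ∀ z, fr p.W (fl L g) (mix p.W y z) = F := fun z => (invR_fr p.W _).mix y z
      have hF0 : 0 ≤ F := fr_nonneg u.nonneg y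
      have cx := hp.nonneg y
      have cc := (hp.le y hz).trans hc
      have hph := phi_le_one cx cc hF0
      have bA : Bd fun z => |ex L g z| * ω z := (Bd.ex hL hc hg).abs.mul hωb
      have bB : Bd fun z => (1 - phi (p.c y) F) * fl L g z * ω z :=
        ((Bd.of_UI u).const_mul _).mul hωb
      have s1 : fr p.W (fun z => |ex (p :: L) g z| * ω z) y
          ≤ fr p.W (fun z => |ex L g z| * ω z + (1 - phi (p.c y) F) * fl L g z * ω z) y := by
        unfold fr
        refine integral_mono (bL.mixr p.W y).integrable ((bA.add bB).mixr p.W y).integrable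
          fun z => ?_
        show |ex (p :: L) g (mix p.W y z)| * ω (mix p.W y z) ≤ |ex L g (mix p.W y z)|
          * ω (mix p.W y z) + (1 - phi (p.c y) F) * fl L g (mix p.W y z) * ω (mix p.W y z)
        set w := mix p.W y z with hw
        have e1 : ex (p :: L) g w = ex L g w + (1 - phi (p.c y) F) * fl L g w := by
          unfold ex
          rw [fl_cons, if_neg (hzz z), iF, ic]; ring
        rw [e1, ← add_mul]
        apply mul_le_mul_of_nonneg_right _ (hω0 w)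
        refine (abs_add_le _ _).trans (add_le_add le_rfl ?_)
        rw [abs_of_nonneg (mul_nonneg (by linarith) (u.nonneg w))]
      rw [fr_add bA bB] at s1
      have ihy := ih hL hk (fun q hq => hPr q (List.mem_cons_of_mem _ hq))
        (fun q hq => hcr q (List.mem_cons_of_mem _ hq)) (W := p.W) (fun q hq => hab q hq) y
      have nd := fr_node_disp hp hL hc hg hz (k1 y hz) hr hτ (hPr p List.mem_cons_self y hz)
        (hcr p List.mem_cons_self y hz) he1 he2 hωb hω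
      have s2 : fr p.W (rotB (p :: L) g) y = p.c y * ql p.W g y + fr p.W (rotB L g) y := by
        have b1 : Bd fun z => p.c y * (1 - g z) :=
          (((Bd.const 1).sub (Bd.of_UI hg))).const_mul _
        have e2 : p.c y * ql p.W g y = fr p.W (fun z => p.c y * (1 - g z)) y := by
          rw [fr_const_mul]; rfl
        rw [e2, ← fr_add b1 bRL]
        unfold fr
        congr 1
        funext z
        rw [rotB_cons, if_neg (hzz z), ic]
      rw [s2]
      calc _ ≤ _ := s1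
        _ ≤ τ * (20 * r + 16) * fr p.W (rotB L g) y
            + τ * (20 * r + 16) * (p.c y * ql p.W g y) := add_le_add ihy nd
        _ = _ := by ring

/-- test functions on the whole space -/
structure TF (w : E → ℝ) (ℓ : ℝ) : Prop where
  meas : Measurable w
  bd : ∀ x, |w x| ≤ 1
  lip : ∀ x y, |w x - w y| ≤ ℓ * ‖x - y‖

/-- **(F4), core**: the change of the field of the rotated levels at the label `W'` fixed by the
rotation. `g` is the payoff of the old body, `g'` of the new body, `g' ∘ R = g`. -/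
theorem soft_core (hL : Good c0 L) (hc0 : 0 ≤ c0) (hc : c0 ≤ 1 / 16)
    (hs : sg c0 ^ L.length ≤ 2) (hg : UI g) (hg' : UI g') (h1 : HidOK L g) (h2 : HidOK L g')
    (h3 : HidOK L (gm g g')) (hW : ∀ p ∈ L, W' ≤ p.W) {R : E ≃ₗᵢ[ℝ] E}
    (hR : ∀ w ∈ W', R w = w) (hgg : ∀ x, g' (R x) = g x)
    {r τ : ℝ} (hr : 0 ≤ r) (hτ : 0 ≤ τ)
    (hPr : ∀ p ∈ L, ∀ x, x ∉ p.Z → ‖p.W.starProjection x‖ ≤ r)
    (hcr : ∀ p ∈ L, ∀ x, x ∉ p.Z → Real.exp (-r ^ 2) ≤ p.c x)
    {e1 e2 : E} (he1 : ‖e1‖ ≤ 1) (he2 : ‖e2‖ ≤ 1)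
    (hdisp : ∀ y, ‖R.symm y - y‖ ≤ τ * (|⟪e1, y⟫| + |⟪e2, y⟫|))
    (hK : ∀ y, g y ≠ 1 → ‖y‖ ≤ r) {w : E → ℝ} {ℓ : ℝ} (hℓ : 0 ≤ ℓ) (hw : TF w ℓ) (x : E) :
    |fr W' (fun y => (fl L g' (R y) - fl L g y) * w y) x|
      ≤ fr W' (rotA L g g') x + ℓ * (τ * (20 * r + 16) * fr W' (rotB L g) x) := by
  have u := fl_UI hL hc hg
  have u' := fl_UI hL hc hg'
  have bw : Bd w := ⟨hw.meas, 1, hw.bd⟩
  have bws : Bd fun y => w (R.symm y) := bw.comp R.symm.continuous.measurable
  have be := Bd.ex hL hc hg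
  have be' := Bd.ex hL hc hg'
  set ω : E → ℝ := fun y => |w (R.symm y) - w y| with hωd
  have bω : Bd ω := (bws.sub bw).abs
  have hω0 : ∀ y, 0 ≤ ω y := fun y => abs_nonneg _
  have hω1 : ∀ y, ω y ≤ ℓ * ‖R.symm y - y‖ := fun y => hw.lip _ _
  have hω : ∀ y, ω y ≤ (ℓ * τ) * (|⟪e1, y⟫| + |⟪e2, y⟫|) := by
    intro y
    refine (hω1 y).trans ?_
    rw [mul_assoc]
    exact mul_le_mul_of_nonneg_left (hdisp y) hℓ
  have hKω : ∀ y, (1 - g y) * ω y ≤ (1 - g y) * (2 * (ℓ * τ) * r) := by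
    intro y
    have h0 : 0 ≤ 1 - g y := by linarith [hg.le_one y]
    by_cases h : g y = 1
    · rw [h]; simp
    · apply mul_le_mul_of_nonneg_left _ h0
      have hy := hK y h
      refine (hω y).trans ?_
      have a1 : |⟪e1, y⟫| ≤ r := by
        refine (abs_real_inner_le_norm _ _).trans ?_
        calc ‖e1‖ * ‖y‖ ≤ 1 * r := mul_le_mul he1 hy (norm_nonneg _) zero_le_one
          _ = r := one_mul r
      have a2 : |⟪e2, y⟫| ≤ r := by
        refine (abs_real_inner_le_norm _ _).trans ?_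
        calc ‖e2‖ * ‖y‖ ≤ 1 * r := mul_le_mul he2 hy (norm_nonneg _) zero_le_one
          _ = r := one_mul r
      have a3 : 0 ≤ ℓ * τ := mul_nonneg hℓ hτ
      calc ℓ * τ * (|⟪e1, y⟫| + |⟪e2, y⟫|) ≤ ℓ * τ * (r + r) :=
            mul_le_mul_of_nonneg_left (add_le_add a1 a2) a3
        _ = _ := by ring
  -- decomposition
  have d0 : (fun y => (fl L g' (R y) - fl L g y) * w y)
      = fun y => (ex L g y * w y - ex L g (R y) * w y)
        + (ex L g (R y) - ex L g' (R y)) * w y := by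
    funext y
    unfold ex
    rw [hgg]
    ring
  have beR : Bd fun y => ex L g (R y) := be.comp R.continuous.measurable
  have beR' : Bd fun y => ex L g' (R y) := be'.comp R.continuous.measurable
  rw [d0, fr_add ((be.mul bw).sub (beR.mul bw)) ((beR.sub beR').mul bw),
    fr_sub (be.mul bw) (beR.mul bw)]
  have d1 : fr W' (fun y => ex L g (R y) * w y) x = fr W' (fun y => ex L g y * w (R.symm y)) x := by
    have := fr_fix hR (be.mul bws) x
    rw [← this]
    congr 1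
    funext y
    rw [R.symm_apply_apply]
  rw [d1, ← fr_sub (be.mul bw) (be.mul bws)]
  refine (abs_add_le _ _).trans ?_
  rw [add_comm (fr W' (rotA L g g') x)]
  refine add_le_add ?_ ?_
  · refine (abs_fr_le _ x).trans ?_
    have t1 : fr W' (fun y => |ex L g y * w y - ex L g y * w (R.symm y)|) x
        ≤ fr W' (fun y => |ex L g y| * ω y) x := by
      refine fr_mono ((be.mul bw).sub (be.mul bws)).abs (be.abs.mul bω) (fun y => ?_) x
      rw [← mul_sub, abs_mul, hωd]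
      apply le_of_eq
      congr 1
      exact abs_sub_comm _ _
    have t2 := fr_ex_mul_le hL hc hg h1 hr (mul_nonneg hℓ hτ) hPr hcr he1 he2 bω hω0 hω hKω hW x
    refine t1.trans (t2.trans_eq ?_)
    ring
  · refine (abs_fr_le _ x).trans ?_
    have t1 : fr W' (fun y => |(ex L g (R y) - ex L g' (R y)) * w y|) x
        ≤ fr W' (fun y => |ex L g' (R y) - ex L g (R y)|) x := by
      refine fr_mono ((beR.sub beR').mul bw).abs (beR'.sub beR).abs (fun y => ?_) x
      rw [abs_mul, abs_sub_comm]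
      exact mul_le_of_le_one_right (abs_nonneg _) (hw.bd y)
    have t2 : fr W' (fun y => |ex L g' (R y) - ex L g (R y)|) x
        = fr W' (fun y => |ex L g' y - ex L g y|) x :=
      fr_fix hR (be'.sub be).abs x
    exact (t1.trans_eq t2).trans (fr_ex_sub_le hL hc0 hc hs hg hg' h1 h2 h3 hW x)

/-- the larger of the two visible masses at the label of `W'` -/
noncomputable def mx (W' : Submodule ℝ E) (L2 : List (Lev E)) (g g' : E → ℝ) (z : E) : ℝ :=
  max (fr W' (fl L2 g) z) (fr W' (fl L2 g') z)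

/-- **(F4)** inner rotation seen from an outer label `W`: `L1` the levels between `W` and the
rotation (label spaces `≤ W'`, fixed by `R`), `L2` the levels moved by the rotation. -/
theorem soft_outer (hL1 : Good c0 L1) (hL2 : Good c0 L2) (hc0 : 0 ≤ c0) (hc : c0 ≤ 1 / 16)
    (hs1 : sg c0 ^ L1.length ≤ 2) (hs2 : sg c0 ^ L2.length ≤ 2) (hg : UI g) (hg' : UI g')
    (h1 : HidOK L2 g) (h2 : HidOK L2 g') (h3 : HidOK L2 (gm g g'))
    (hW1 : ∀ p ∈ L1, W ≤ p.W) (hb : ∀ p ∈ L1, p.W ≤ W') (hWW : W ≤ W')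
    (hW2 : ∀ p ∈ L2, W' ≤ p.W) {R : E ≃ₗᵢ[ℝ] E}
    (hR : ∀ w ∈ W', R w = w) (hgg : ∀ x, g' (R x) = g x)
    {r τ : ℝ} (hr : 0 ≤ r) (hτ : 0 ≤ τ)
    (hPr : ∀ p ∈ L2, ∀ x, x ∉ p.Z → ‖p.W.starProjection x‖ ≤ r)
    (hcr : ∀ p ∈ L2, ∀ x, x ∉ p.Z → Real.exp (-r ^ 2) ≤ p.c x)
    {e1 e2 : E} (he1 : ‖e1‖ ≤ 1) (he2 : ‖e2‖ ≤ 1)
    (hdisp : ∀ y, ‖R.symm y - y‖ ≤ τ * (|⟪e1, y⟫| + |⟪e2, y⟫|))
    (hK : ∀ y, g y ≠ 1 → ‖y‖ ≤ r) {w : E → ℝ} {ℓ : ℝ} (hℓ : 0 ≤ ℓ) (hw : TF w ℓ) (x : E) :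
    |fr W (fun y => (fl (L1 ++ L2) g' (R y) - fl (L1 ++ L2) g y) * w y) x|
      ≤ 3 * fr W (fun y => vis L1 (mx W' L2 g g') y * rotA L2 g g' y) x
        + ℓ * (τ * (20 * r + 16)
          * fr W (fun y => vis L1 (mx W' L2 g g') y * rotB L2 g y) x) := by
  have u := fl_UI hL2 hc hg
  have u' := fl_UI hL2 hc hg'
  have uR : UI fun y => fl L2 g' (R y) := UI.comp_isom u' R
  have hR1 : ∀ p ∈ L1, ∀ w ∈ p.W, R w = w := fun p hp w hw => hR w (hb p hp hw)
  have e0 : (fun y => (fl (L1 ++ L2) g' (R y) - fl (L1 ++ L2) g y) * w y)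
      = fun y => (fl L1 (fun z => fl L2 g' (R z)) y - fl L1 (fl L2 g) y) * w y := by
    funext y
    rw [fl_append, fl_append, fl_fix hL1 hc u' hR1]
  rw [e0]
  have hP := pert hL1 hc0 hc u uR hW1 hb hWW hw.meas hw.bd x
  refine hP.trans ?_
  set M : E → ℝ := fun z => max (fr W' (fl L2 g) z) (fr W' (fun z => fl L2 g' (R z)) z) with hM
  have uM : UI M := Vale.Agent.P262.H654.UI.max (Vale.Agent.P262.H654.UI.fr u W')
    (Vale.Agent.P262.H654.UI.fr uR W')
  have hMm : M = mx W' L2 g g' := by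
    funext z
    simp only [hM, mx]
    rw [fr_fix hR (Bd.of_UI u')]
  have umx : UI (mx W' L2 g g') := hMm ▸ uM
  obtain ⟨⟨_, _, iv⟩, ⟨_, _, jv⟩, _⟩ := cond_aux hL1 hc umx hb
  have uV := vis_UI hL1 hc umx
  have uVM := vis_UI hL1 hc uM
  have vle : ∀ y, vis L1 M y ≤ vis L1 (mx W' L2 g g') y := by
    intro y
    rw [hMm]
  have bA := Bd.rotA hL2 hg hg'
  have bB := Bd.rotB hL2 hg
  have bw : Bd w := ⟨hw.meas, 1, hw.bd⟩
  set C : ℝ := ℓ * (τ * (20 * r + 16)) with hC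
  have hC0 : 0 ≤ C := by positivity
  have core := fun y => soft_core hL2 hc0 hc hs2 hg hg' h1 h2 h3 hW2 hR hgg hr hτ hPr hcr he1 he2
    hdisp hK hℓ hw y
  have w1 : TF (fun _ : E => (1:ℝ)) 0 := ⟨measurable_const, fun _ => by simp, fun _ _ => by simp⟩
  have core1 := fun y => soft_core hL2 hc0 hc hs2 hg hg' h1 h2 h3 hW2 hR hgg hr hτ hPr hcr he1 he2
    hdisp hK le_rfl w1 y
  have nA : ∀ y, 0 ≤ fr W' (rotA L2 g g') y := fun y => fr_nonneg (rotA_nonneg hL2 hg hg') y
  have nB : ∀ y, 0 ≤ fr W' (rotB L2 g) y := fun y => fr_nonneg (rotB_nonneg hL2 hg) y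
  have bd0 : Bd fun y => (fl L2 g' (R y) - fl L2 g y) * w y :=
    ((Bd.of_UI uR).sub (Bd.of_UI u)).mul bw
  have T1 : fr W (fun y => vis L1 M y
      * |fr W' (fun z => (fl L2 g' (R z) - fl L2 g z) * w z) y|) x
      ≤ fr W (fun y => vis L1 (mx W' L2 g g') y * fr W' (rotA L2 g g') y) x
        + C * fr W (fun y => vis L1 (mx W' L2 g g') y * fr W' (rotB L2 g) y) x := by
    have b1 := (Bd.of_UI uV).mul (bA.fr W')
    have b2 := (Bd.of_UI uV).mul (bB.fr W')
    rw [← fr_const_mul, ← fr_add b1 (b2.const_mul _)]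
    refine fr_mono ((Bd.of_UI uVM).mul (bd0.fr W').abs) (b1.add (b2.const_mul _)) (fun y => ?_) x
    have h5 := core y
    have h6 := nA y
    have h7 := nB y
    have h8 : 0 ≤ fr W' (rotA L2 g g') y + C * fr W' (rotB L2 g) y := by positivity
    calc vis L1 M y * |fr W' (fun z => (fl L2 g' (R z) - fl L2 g z) * w z) y|
        ≤ vis L1 M y * (fr W' (rotA L2 g g') y + C * fr W' (rotB L2 g) y) := by
          refine mul_le_mul_of_nonneg_left (h5.trans_eq ?_) (uVM.nonneg y)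
          rw [hC]; ring
      _ ≤ vis L1 (mx W' L2 g g') y * (fr W' (rotA L2 g g') y + C * fr W' (rotB L2 g) y) :=
          mul_le_mul_of_nonneg_right (vle y) h8
      _ = _ := by ring
  have T2 : fr W (fun y => vis L1 M y
      * |fr W' (fun z => fl L2 g' (R z)) y - fr W' (fl L2 g) y|) x
      ≤ fr W (fun y => vis L1 (mx W' L2 g g') y * fr W' (rotA L2 g g') y) x := by
    have b1 := (Bd.of_UI uV).mul (bA.fr W')
    refine fr_mono ((Bd.of_UI uVM).mul (((Bd.of_UI uR).fr W').sub ((Bd.of_UI u).fr W')).abs) b1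
      (fun y => ?_) x
    have h5 := core1 y
    have h6 : fr W' (fun y => (fl L2 g' (R y) - fl L2 g y) * (1:ℝ)) y
        = fr W' (fun z => fl L2 g' (R z)) y - fr W' (fl L2 g) y := by
      rw [← fr_sub (Bd.of_UI uR) (Bd.of_UI u)]
      congr 1; funext z; ring
    rw [h6, zero_mul, add_zero] at h5
    calc vis L1 M y * |fr W' (fun z => fl L2 g' (R z)) y - fr W' (fl L2 g) y|
        ≤ vis L1 M y * fr W' (rotA L2 g g') y := mul_le_mul_of_nonneg_left h5 (uVM.nonneg y)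
      _ ≤ _ := mul_le_mul_of_nonneg_right (vle y) (nA y)
  have tA : fr W (fun y => vis L1 (mx W' L2 g g') y * fr W' (rotA L2 g g') y) x
      = fr W (fun y => vis L1 (mx W' L2 g g') y * rotA L2 g g' y) x :=
    fr_mul_tower hWW iv (Bd.of_UI uV) bA x
  have tB : fr W (fun y => vis L1 (mx W' L2 g g') y * fr W' (rotB L2 g) y) x
      = fr W (fun y => vis L1 (mx W' L2 g g') y * rotB L2 g y) x :=
    fr_mul_tower hWW iv (Bd.of_UI uV) bB x
  have nn : 0 ≤ fr W (fun y => vis L1 (mx W' L2 g g') y * rotA L2 g g' y) x :=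
    fr_nonneg (fun y => mul_nonneg (uV.nonneg y) (rotA_nonneg hL2 hg hg' y)) x
  rw [tA] at T1 T2
  rw [tB] at T1
  have n0 : 0 ≤ fr W (fun y => vis L1 M y
      * |fr W' (fun z => fl L2 g' (R z)) y - fr W' (fl L2 g) y|) x :=
    fr_nonneg (fun y => mul_nonneg (uVM.nonneg y) (abs_nonneg _)) x
  have T3 : sg c0 ^ L1.length * fr W (fun y => vis L1 M y
      * |fr W' (fun z => fl L2 g' (R z)) y - fr W' (fl L2 g) y|) x
      ≤ 2 * fr W (fun y => vis L1 (mx W' L2 g g') y * rotA L2 g g' y) x :=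
    (mul_le_mul_of_nonneg_right hs1 n0).trans (mul_le_mul_of_nonneg_left T2 (by norm_num))
  have e9 : ℓ * (τ * (20 * r + 16)
      * fr W (fun y => vis L1 (mx W' L2 g g') y * rotB L2 g y) x)
      = C * fr W (fun y => vis L1 (mx W' L2 g g') y * rotB L2 g y) x := by rw [hC]; ring
  rw [e9]
  linarith

/-! ### the fibre as a space of its own -/

lemma fr_eq_slice {f : E → ℝ} (hf : Measurable f) (W : Submodule ℝ E) (x : E) :
    fr W f x = ∫ z, f (H852.sl W x z) ∂(stdGaussian Wᗮ) := by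
  unfold fr
  simp_rw [H852.mix_eq_sl]
  have hm : Measurable fun z : Wᗮ => f (H852.sl W x z) :=
    hf.comp (H852.measurable_sl_right W x)
  have h := integral_map (μ := stdGaussian E) (φ := fun y => Wᗮ.orthogonalProjection y)
    (f := fun z : Wᗮ => f (H852.sl W x z))
    (Wᗮ.orthogonalProjection.continuous.measurable).aemeasurable hm.aestronglyMeasurable
  rw [← H852.map_proj_stdGaussian Wᗮ]
  exact h.symm

/-- **(F4) in the form of a soft change in the fibre of the outer label** -/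
theorem soft_slice (hL1 : Good c0 L1) (hL2 : Good c0 L2) (hc0 : 0 ≤ c0) (hc : c0 ≤ 1 / 16)
    (hs1 : sg c0 ^ L1.length ≤ 2) (hs2 : sg c0 ^ L2.length ≤ 2) (hg : UI g) (hg' : UI g')
    (h1 : HidOK L2 g) (h2 : HidOK L2 g') (h3 : HidOK L2 (gm g g'))
    (hW1 : ∀ p ∈ L1, W ≤ p.W) (hb : ∀ p ∈ L1, p.W ≤ W') (hWW : W ≤ W')
    (hW2 : ∀ p ∈ L2, W' ≤ p.W) {R : E ≃ₗᵢ[ℝ] E}
    (hR : ∀ w ∈ W', R w = w) (hgg : ∀ x, g' (R x) = g x)
    {r τ : ℝ} (hr : 0 ≤ r) (hτ : 0 ≤ τ)
    (hPr : ∀ p ∈ L2, ∀ x, x ∉ p.Z → ‖p.W.starProjection x‖ ≤ r)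
    (hcr : ∀ p ∈ L2, ∀ x, x ∉ p.Z → Real.exp (-r ^ 2) ≤ p.c x)
    {e1 e2 : E} (he1 : ‖e1‖ ≤ 1) (he2 : ‖e2‖ ≤ 1)
    (hdisp : ∀ y, ‖R.symm y - y‖ ≤ τ * (|⟪e1, y⟫| + |⟪e2, y⟫|))
    (hK : ∀ y, g y ≠ 1 → ‖y‖ ≤ r) {C : E ≃ₗᵢ[ℝ] E} (hC : ∀ w ∈ W, C w = w) (x : E) :
    H174.Soft (fun z : Wᗮ => fl (L1 ++ L2) g (C.symm (H852.sl W x z)))
      (fun z : Wᗮ => fl (L1 ++ L2) g' (R (C.symm (H852.sl W x z))))
      (3 * fr W (fun y => vis L1 (mx W' L2 g g') y * rotA L2 g g' y) x)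
      (τ * (20 * r + 16) * fr W (fun y => vis L1 (mx W' L2 g g') y * rotB L2 g y) x) := by
  intro Ψ ℓ hℓ hΨ
  have mproj : Measurable (Wᗮ.orthogonalProjection : E → Wᗮ) :=
    Wᗮ.orthogonalProjection.continuous.measurable
  set w : E → ℝ := fun y => Ψ (Wᗮ.orthogonalProjection y) with hw
  have hTF : TF w ℓ := by
    refine ⟨hΨ.meas.comp mproj, fun y => hΨ.bd _, fun y y' => ?_⟩
    refine (hΨ.lip _ _).trans (mul_le_mul_of_nonneg_left ?_ hℓ)
    rw [← map_sub]
    exact Submodule.norm_orthogonalProjection_apply_le _ _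
  have hTF' : TF (fun y => w (C y)) ℓ := by
    refine ⟨hTF.meas.comp C.continuous.measurable, fun y => hTF.bd _, fun y y' => ?_⟩
    refine (hTF.lip _ _).trans_eq ?_
    rw [← map_sub, C.norm_map]
  have hmain := soft_outer hL1 hL2 hc0 hc hs1 hs2 hg hg' h1 h2 h3 hW1 hb hWW hW2 hR hgg hr hτ hPr
    hcr he1 he2 hdisp hK hℓ hTF' x
  have hG12 : Good c0 (L1 ++ L2) := good_append.mpr
    ⟨hL1, hL2, fun p hp q hq => (hb p hp).trans (hW2 q hq)⟩
  have m1 := (fl_UI hG12 hc hg).meas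
  have m2 := (UI.comp_isom (fl_UI hG12 hc hg') R).meas
  have u1 := fl_UI hG12 hc hg
  have u2 := UI.comp_isom (fl_UI hG12 hc hg') R
  have bw : Bd w := ⟨hTF.meas, 1, hTF.bd⟩
  have hsC : ∀ w ∈ W, C.symm w = w := by
    intro v hv
    rw [LinearIsometryEquiv.symm_apply_eq, hC v hv]
  have b1 : Bd fun y => (fl (L1 ++ L2) g' (R y) - fl (L1 ++ L2) g y) * w (C y) :=
    ((Bd.of_UI u2).sub (Bd.of_UI u1)).mul (bw.comp C.continuous.measurable)
  have eC := fr_fix hsC b1 x
  have eC' : (fun y => (fl (L1 ++ L2) g' (R (C.symm y)) - fl (L1 ++ L2) g (C.symm y))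
      * w (C (C.symm y)))
      = fun y => (fl (L1 ++ L2) g' (R (C.symm y)) - fl (L1 ++ L2) g (C.symm y)) * w y := by
    funext y
    rw [C.apply_symm_apply]
  have m2' : Measurable fun y => fl (L1 ++ L2) g' (R (C.symm y)) :=
    m2.comp C.symm.continuous.measurable
  have m1' : Measurable fun y => fl (L1 ++ L2) g (C.symm y) :=
    m1.comp C.symm.continuous.measurable
  have e0 := fr_eq_slice
    (f := fun y => (fl (L1 ++ L2) g' (R (C.symm y)) - fl (L1 ++ L2) g (C.symm y)) * w y)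
    ((m2'.sub m1').mul hTF.meas) W x
  have eC2 : fr W (fun y => (fl (L1 ++ L2) g' (R (C.symm y)) - fl (L1 ++ L2) g (C.symm y)) * w y) x
      = fr W (fun y => (fl (L1 ++ L2) g' (R y) - fl (L1 ++ L2) g y) * w (C y)) x := by
    rw [← eC, ← eC']
  rw [← eC2, e0] at hmain
  have e : ∀ z : Wᗮ, w (H852.sl W x z) = Ψ z := by
    intro z
    simp only [hw]
    congr 1
    apply Subtype.ext
    rw [← Submodule.starProjection_apply]
    unfold H852.sl
    rw [map_add]
    have a1 : Wᗮ.starProjection (W.starProjection x) = 0 := by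
      rw [Submodule.starProjection_apply_eq_zero_iff, Submodule.orthogonal_orthogonal]
      exact Submodule.starProjection_apply_mem W x
    rw [a1, zero_add]
    exact Submodule.starProjection_eq_self_iff.mpr z.2
  simp_rw [e] at hmain
  exact hmain

end Vale.Agent.P262.H712
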