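import Vale.Agent.P262.H712.FieldRot
import Vale.Agent.P262.H654.FieldD
import Vale.Agent.P262.H174.Soft6

/-!
# P262, milestone 1, FIELD part F4: the soft change of the cut-off field under an inner rotation

`L1` = the levels between the outer label and the rotation (fixed by the isometry `R`),
`L2` = the levels moved by the rotation. In the coordinates of the outer label the field changes
from `fl (L1 ++ L2) g` to `fl (L1 ++ L2) g' ∘ R`, where `g' ∘ R = g`.
-/

set_option linter.all false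

open MeasureTheory ProbabilityTheory Set
open scoped ENNReal RealInnerProductSpace Classical

namespace Vale.Agent.P262.H712

open Vale.Agent.P262.H395 (mix)
open Vale.Agent.P262.H847 (UI)
open Vale.Agent.P262.H654
open Vale.Agent.P262.H941 (LL LL_mono LL_nonneg LL_zero)

variable {E : Type*} [NormedAddCommGroup E] [InnerProductSpace ℝ E] [FiniteDimensional ℝ E]
  [MeasurableSpace E] [BorelSpace E]

variable {c0 : ℝ} {p : Lev E} {L L' L1 L2 : List (Lev E)} {g g' : E → ℝ}
  {W W' : Submodule ℝ E} {x y : E}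

/-! ### isometries fixing the labels -/

lemma proj_fix {R : E ≃ₗᵢ[ℝ] E} (hR : ∀ w ∈ W, R w = w) (x : E) :
    W.starProjection (R x) = W.starProjection x := by
  have h1 : R x - W.starProjection x ∈ Wᗮ := by
    rw [Submodule.mem_orthogonal]
    intro w hw
    have h2 : R x - W.starProjection x = R (x - W.starProjection x) := by
      rw [map_sub, hR _ (Submodule.starProjection_apply_mem W x)]
    rw [h2, ← hR w hw, R.inner_map_map]
    exact (Submodule.mem_orthogonal W _).1 (Submodule.sub_starProjection_mem_orthogonal x) w hw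
  have h3 := H395.proj_eq_zero h1
  rw [map_sub, H395.proj_proj, sub_eq_zero] at h3
  exact h3

lemma InvR.fix {R : E ≃ₗᵢ[ℝ] E} (hR : ∀ w ∈ W, R w = w) {f : E → ℝ} (hf : InvR W f) (x : E) :
    f (R x) = f x := hf.eq_of (proj_fix hR x)

lemma mix_fix {R : E ≃ₗᵢ[ℝ] E} (hR : ∀ w ∈ W, R w = w) (x z : E) :
    R (mix W x z) = mix W x (R z) := by
  unfold H395.mix
  rw [map_add, map_sub, hR _ (Submodule.starProjection_apply_mem W x),
    hR _ (Submodule.starProjection_apply_mem W z), proj_fix hR z]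

lemma fr_fix {R : E ≃ₗᵢ[ℝ] E} (hR : ∀ w ∈ W, R w = w) {f : E → ℝ} (hf : Bd f) (x : E) :
    fr W (fun y => f (R y)) x = fr W f x := by
  unfold fr
  simp_rw [mix_fix hR]
  have h2 : (stdGaussian E).map R = stdGaussian E := stdGaussian_map R
  conv_rhs => rw [← h2]
  rw [integral_map R.continuous.measurable.aemeasurable
    ((hf.mixr W x).meas.aestronglyMeasurable)]

lemma UI.comp_isom {f : E → ℝ} (hf : UI f) (R : E ≃ₗᵢ[ℝ] E) : UI fun y => f (R y) :=
  ⟨hf.meas.comp R.continuous.measurable, fun x => hf.nonneg _, fun x => hf.le_one _⟩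

lemma mem_fix (hp : LevOK c0 p) {R : E ≃ₗᵢ[ℝ] E} (hR : ∀ w ∈ p.W, R w = w) (x : E) :
    (R x ∈ p.Z ↔ x ∈ p.Z) := by
  have h1 : R x - x ∈ p.Wᗮ := by
    rw [← Submodule.starProjection_apply_eq_zero_iff, map_sub, proj_fix hR, sub_self]
  have := hp.invZ x (R x - x) h1
  rwa [add_sub_cancel] at this

/-- levels fixed by `R` commute with `R` -/
lemma fl_fix (hL : Good c0 L) (hc : c0 ≤ 1 / 16) (hg : UI g) {R : E ≃ₗᵢ[ℝ] E}
    (hR : ∀ p ∈ L, ∀ w ∈ p.W, R w = w) (x : E) :
    fl L (fun y => g (R y)) x = fl L g (R x) := by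
  induction L generalizing x with
  | nil => rfl
  | cons p L ih =>
    obtain ⟨hp, hab, hL⟩ := hL
    have hRp := hR p List.mem_cons_self
    have h1 : fl L (fun y => g (R y)) = fun y => fl L g (R y) :=
      funext (ih hL fun q hq => hR q (List.mem_cons_of_mem _ hq))
    rw [fl_cons, fl_cons, h1, fr_fix hRp (Bd.of_UI (fl_UI hL hc hg)),
      InvR.fix hRp (invR_fr p.W (fl L g)), InvR.fix hRp hp.inv, mem_fix hp hRp]

/-! ### hidden mass -/

lemma caps_hidOK {k : ℝ} (hk0 : 0 ≤ k) (hk : k ≤ 1 / 2) (hL : Good c0 L) (hc : c0 ≤ 1 / 16)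
    (hg : UI g) (hcap : ∀ q M, L = q :: M → Caps k q M) : HidOK L g := by
  induction L with
  | nil => trivial
  | cons q L ih =>
    have hcq := hcap q L rfl
    refine ⟨fun x hx => ?_, ih hL.2.2 ?_⟩
    · have h1 := fr_hid_le_caps hk0 hk hL hc hg hcq hx
      have h2 := hL.1.nonneg x
      have u := fl_UI hL.2.2 hc hg
      have uh := hid_UI hL.2.2 hc hg
      have h3 : fr q.W g x ≤ fr q.W (fun y => fl L g y + hid L g y) x := by
        refine fr_mono (Bd.of_UI hg) ((Bd.of_UI u).add (Bd.of_UI uh)) (fun y => ?_) x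
        rw [fl_add_hid]
        have a1 := (al_UI hL.2.2).le_one y
        have a2 := hg.le_one y
        nlinarith
      rw [fr_add (Bd.of_UI u) (Bd.of_UI uh)] at h3
      nlinarith
    · intro r M h
      subst h
      exact hcq.2

/-! ### the displaced mass -/

/-- the charge of the displacement -/
noncomputable def rotB : List (Lev E) → (E → ℝ) → E → ℝ
  | [], _ => fun _ => 0
  | p :: L, g => fun x => if x ∈ p.Z then 1 - g x else p.c x * (1 - g x) + rotB L g x

lemma rotB_cons : rotB (p :: L) g x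
    = if x ∈ p.Z then 1 - g x else p.c x * (1 - g x) + rotB L g x := rfl

lemma rotB_nonneg (hL : Good c0 L) (hg : UI g) (x : E) : 0 ≤ rotB L g x := by
  induction L with
  | nil => exact le_rfl
  | cons p L ih =>
    obtain ⟨hp, hab, hL⟩ := hL
    rw [rotB_cons]
    have h1 := (UI.compl hg).nonneg x
    split_ifs with h
    · exact h1
    · have := mul_nonneg (hp.nonneg x) h1
      have := ih hL
      linarith

lemma rotB_bd (hL : Good c0 L) (hg : UI g) :
    Measurable (rotB L g) ∧ ∃ C : ℝ, 0 ≤ C ∧ ∀ x, rotB L g x ≤ C := by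
  induction L with
  | nil => exact ⟨measurable_const, 0, le_rfl, fun _ => le_rfl⟩
  | cons p L ih =>
    obtain ⟨hp, hab, hL⟩ := hL
    obtain ⟨m, C, hC0, hC⟩ := ih hL
    have u := UI.compl hg
    refine ⟨Measurable.ite hp.measZ u.meas ((hp.meas.mul u.meas).add m),
      1 + |c0| + C, by positivity, ?_⟩
    intro x
    rw [rotB_cons]
    have h0 := u.nonneg x
    have h1 := u.le_one x
    split_ifs with h
    · have := abs_nonneg c0
      linarith
    · have h2 := hC x
      have h3 := (hp.le x h).trans (le_abs_self c0)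
      have h4 : p.c x * (1 - g x) ≤ |c0| * 1 :=
        mul_le_mul h3 h1 h0 (abs_nonneg _)
      linarith

lemma Bd.rotB (hL : Good c0 L) (hg : UI g) : Bd (rotB L g) := by
  obtain ⟨m, C, hC0, hC⟩ := rotB_bd hL hg
  exact ⟨m, C, fun x => by rw [abs_of_nonneg (rotB_nonneg hL hg x)]; exact hC x⟩

/-- the bathtub bound for vectors of norm at most one -/
lemma int_abs_inner_le' {u : E → ℝ} (hu : UI u) {b : E} (hb : ‖b‖ ≤ 1) :
    ∫ x, u x * |⟪b, x⟫| ∂(stdGaussian E) ≤ 4 * LL (∫ x, u x ∂(stdGaussian E)) := by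
  have hm : 0 ≤ ∫ x, u x ∂(stdGaussian E) := integral_nonneg hu.nonneg
  rcases eq_or_ne b 0 with rfl | hb0
  · simp only [inner_zero_left, abs_zero, mul_zero, integral_zero]
    have := LL_nonneg hm
    linarith
  · have hn : 0 < ‖b‖ := norm_pos_iff.mpr hb0
    set e : E := (‖b‖⁻¹ : ℝ) • b with he
    have he1 : ‖e‖ = 1 := by
      rw [he, norm_smul, norm_inv, norm_norm, inv_mul_cancel₀ hn.ne']
    have hbe : b = (‖b‖ : ℝ) • e := by
      rw [he, smul_smul, mul_inv_cancel₀ hn.ne', one_smul]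
    refine le_trans ?_ (H174.int_abs_inner_le hu he1)
    refine integral_mono (H174.UI.int_abs_inner hu b) (H174.UI.int_abs_inner hu e) fun x => ?_
    show u x * |⟪b, x⟫| ≤ u x * |⟪e, x⟫|
    refine mul_le_mul_of_nonneg_left ?_ (hu.nonneg x)
    have h1 : |⟪b, x⟫| = ‖b‖ * |⟪e, x⟫| := by
      conv_lhs => rw [hbe]
      rw [real_inner_smul_left, abs_mul, abs_norm]
    rw [h1]
    exact mul_le_of_le_one_left (abs_nonneg _) hb

/-- caps which are not too small -/
lemma LL_le_cap {c r : ℝ} (hr : 0 ≤ r) (hc : Real.exp (-r ^ 2) ≤ c) (hc1 : c ≤ 1) :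
    LL c ≤ c * (1 + r) := by
  have hc0 : 0 < c := (Real.exp_pos _).trans_le hc
  unfold H941.LL
  refine mul_le_mul_of_nonneg_left ?_ hc0.le
  rw [Real.sqrt_le_left (by linarith)]
  have h1 : -r ^ 2 ≤ Real.log c := by
    rw [Real.le_log_iff_exp_le hc0]; exact hc
  nlinarith

/-- one node: the displaced hidden mass -/
lemma fr_node_disp (hp : LevOK c0 p) (hL : Good c0 L) (hc : c0 ≤ 1 / 16) (hg : UI g)
    {x : E} (hx : x ∉ p.Z) (hk : fr p.W g x ≤ fr p.W (fl L g) x + p.c x)
    {r τ : ℝ} (hr : 0 ≤ r) (hτ : 0 ≤ τ) (hPr : ‖p.W.starProjection x‖ ≤ r)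
    (hcr : Real.exp (-r ^ 2) ≤ p.c x) {e1 e2 : E} (he1 : ‖e1‖ ≤ 1) (he2 : ‖e2‖ ≤ 1)
    {ω : E → ℝ} (hωb : Bd ω) (hω : ∀ y, ω y ≤ τ * (|⟪e1, y⟫| + |⟪e2, y⟫|)) :
    fr p.W (fun z => (1 - phi (p.c x) (fr p.W (fl L g) x)) * fl L g z * ω z) x
      ≤ τ * (20 * r + 16) * (p.c x * ql p.W g x) := by
  have u := fl_UI hL hc hg
  set F := fr p.W (fl L g) x with hF
  have hF0 : 0 ≤ F := fr_nonneg u.nonneg x
  have hcx := (hp.le x hx).trans hc
  have hc0 := hp.nonneg x
  have hq0 := (UI.ql hg p.W).nonneg x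
  have hR : 0 ≤ τ * (20 * r + 16) * (p.c x * ql p.W g x) := by positivity
  rcases le_or_gt (1 / 8) F with h8 | h8
  · rw [phi_self hcx h8]
    simp only [sub_self, zero_mul]
    rw [fr_const]
    exact hR
  have hq : 1 / 2 ≤ ql p.W g x := by
    have := one_sub_fr hg p.W x
    linarith
  have hph1 := phi_le_one hc0 hcx hF0
  have hph0 := phi_nonneg hc0 hcx hF0
  set s : ℝ := 1 - phi (p.c x) F with hs
  have hs0 : 0 ≤ s := by linarith
  have hs1 : s ≤ 1 := by linarith
  set U : E → ℝ := fun z => s * fl L g (mix p.W x z) with hU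
  have hUu : UI U := by
    refine ⟨(u.meas.comp (H395.measurable_mix_right p.W x)).const_mul s,
      fun z => mul_nonneg hs0 (u.nonneg _), fun z => mul_le_one₀ hs1 (u.nonneg _) (u.le_one _)⟩
  have hm : ∫ z, U z ∂(stdGaussian E) = s * F := by
    show ∫ z, s * fl L g (mix p.W x z) ∂(stdGaussian E) = s * F
    rw [integral_const_mul]
    rfl
  have hmc : s * F ≤ p.c x := one_sub_phi_mul hc0 hcx hF0
  have hm0 : 0 ≤ s * F := mul_nonneg hs0 hF0
  set f1 : E := e1 - p.W.starProjection e1 with hf1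
  set f2 : E := e2 - p.W.starProjection e2 with hf2
  have nrm : ∀ e : E, ‖e‖ ≤ 1 → ‖e - p.W.starProjection e‖ ≤ 1 := by
    intro e he
    have h1 : e - p.W.starProjection e = p.Wᗮ.starProjection e := by
      rw [Submodule.starProjection_orthogonal]; simp
    rw [h1]
    exact (Submodule.norm_starProjection_apply_le _ e).trans he
  have inn : ∀ e z : E, ⟪e, mix p.W x z⟫ = ⟪e, p.W.starProjection x⟫ + ⟪e - p.W.starProjection e, z⟫ := by
    intro e z
    unfold H395.mix
    rw [inner_add_right, inner_sub_right, inner_sub_left,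
      ← Submodule.inner_starProjection_left_eq_right p.W e z]
  have bnd : ∀ e z : E, ‖e‖ ≤ 1 → |⟪e, mix p.W x z⟫| ≤ r + |⟪e - p.W.starProjection e, z⟫| := by
    intro e z he
    rw [inn]
    refine (abs_add_le _ _).trans (add_le_add ?_ le_rfl)
    refine (abs_real_inner_le_norm _ _).trans ?_
    calc ‖e‖ * ‖p.W.starProjection x‖ ≤ 1 * r :=
          mul_le_mul he hPr (norm_nonneg _) zero_le_one
      _ = r := one_mul r
  have i1 := H174.UI.int_abs_inner hUu f1
  have i2 := H174.UI.int_abs_inner hUu f2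
  have iU : Integrable U (stdGaussian E) := hUu.integrable _
  have i12 : Integrable (fun z => U z * |⟪f1, z⟫| + U z * |⟪f2, z⟫|) (stdGaussian E) := i1.add i2
  have iU2 : Integrable (fun z => 2 * r * U z) (stdGaussian E) := iU.const_mul _
  have i123 : Integrable (fun z => 2 * r * U z + (U z * |⟪f1, z⟫| + U z * |⟪f2, z⟫|))
      (stdGaussian E) := iU2.add i12
  have step : fr p.W (fun z => s * fl L g z * ω z) x
      ≤ τ * (2 * r * (s * F) + (∫ z, U z * |⟪f1, z⟫| ∂(stdGaussian E)
        + ∫ z, U z * |⟪f2, z⟫| ∂(stdGaussian E))) := by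
    rw [← hm, ← integral_const_mul, ← integral_add i1 i2,
      ← integral_add iU2 i12, ← integral_const_mul]
    unfold fr
    refine integral_mono ?_ (i123.const_mul τ) fun z => ?_
    · exact ((((Bd.of_UI u).const_mul s).mul hωb).mixr p.W x).integrable
    · show s * fl L g (mix p.W x z) * ω (mix p.W x z)
        ≤ τ * (2 * r * U z + (U z * |⟪f1, z⟫| + U z * |⟪f2, z⟫|))
      have h1 := hω (mix p.W x z)
      have h2 := bnd e1 z he1
      have h3 := bnd e2 z he2
      have h4 : ω (mix p.W x z) ≤ τ * (2 * r + (|⟪f1, z⟫| + |⟪f2, z⟫|)) := by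
        refine h1.trans (mul_le_mul_of_nonneg_left ?_ hτ)
        linarith
      calc s * fl L g (mix p.W x z) * ω (mix p.W x z)
          ≤ s * fl L g (mix p.W x z) * (τ * (2 * r + (|⟪f1, z⟫| + |⟪f2, z⟫|))) :=
            mul_le_mul_of_nonneg_left h4 (hUu.nonneg z)
        _ = _ := by simp only [hU]; ring
  have b1 := int_abs_inner_le' hUu (nrm e1 he1)
  have b2 := int_abs_inner_le' hUu (nrm e2 he2)
  rw [hm] at b1 b2
  have hc1 : p.c x ≤ 1 := by linarith
  have l1 : LL (s * F) ≤ p.c x * (1 + r) :=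
    (LL_mono hm0 hmc hc1).trans (LL_le_cap hr hcr hc1)
  refine step.trans ?_
  have t1 : 2 * r * (s * F) ≤ 2 * r * p.c x := mul_le_mul_of_nonneg_left hmc (by linarith)
  have t2 : 2 * r * (s * F) + (∫ z, U z * |⟪f1, z⟫| ∂(stdGaussian E)
        + ∫ z, U z * |⟪f2, z⟫| ∂(stdGaussian E)) ≤ (10 * r + 8) * p.c x := by
    linarith
  have t3 : (10 * r + 8) * p.c x ≤ (20 * r + 16) * (p.c x * ql p.W g x) := by
    have h1 : p.c x * (1 / 2) ≤ p.c x * ql p.W g x := mul_le_mul_of_nonneg_left hq hc0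
    have h2 : 0 ≤ 20 * r + 16 := by linarith
    nlinarith [mul_le_mul_of_nonneg_left h1 h2]
  calc τ * (2 * r * (s * F) + (∫ z, U z * |⟪f1, z⟫| ∂(stdGaussian E)
        + ∫ z, U z * |⟪f2, z⟫| ∂(stdGaussian E))) ≤ τ * ((20 * r + 16) * (p.c x * ql p.W g x)) :=
        mul_le_mul_of_nonneg_left (t2.trans t3) hτ
    _ = _ := by ring

end Vale.Agent.P262.H712
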