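import Vale.Agent.P262.H654.CF2
import Vale.Agent.P262.H712.FieldSoft

/-!
# P262, milestone 2: moments of the distance of the cut-off field to the payoff

`wd e1 e2 y = 1 + |⟪e1, y⟫| + |⟪e2, y⟫|`.
* `fib_close_wd`: at every label, `E |pay - fl| wd ≤ E exw wd`, `exw` charges the first killed or
  truncated label only (with the square root of the cap);
* `own_wd`: at an own label, vectors orthogonal to the label space, `LL` of the hidden mass.
-/

set_option linter.all false

open MeasureTheory ProbabilityTheory Set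
open scoped ENNReal RealInnerProductSpace Classical

namespace Vale.Agent.P262.H712.BW

open Vale.Agent.P262.H395 (mix fib Inv measurable_fib fib_mono fib_const fib_tower
  measurable_mix_right)
open Vale.Agent.P262.H847 (UI)
open Vale.Agent.P262.H941 (LL LL_nonneg LL_mono LL_mul_le LL_le_sqrt)
open Vale.Agent.P262.H713 Vale.Agent.P262.H713.FT
open Vale.Agent.P262.CF2
open Vale.Agent.P262.H654 (tr phi sg Bd InvR fr sg_pos one_le_sg sg_mono tr_zero tr_nonneg tr_le
  tr_self phi_self sub_tr_le tr_mono tr_slope phi_zero phi_mul phi_nonneg phi_le_one phi_mono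
  measurable_phi measurable_tr invR_fr fr_mono fr_const fr_add fr_sub fr_const_mul fr_nonneg fr_mul
  fr_self abs_fr_le fr_tower ofReal_fr)

variable {E : Type*} [NormedAddCommGroup E] [InnerProductSpace ℝ E] [FiniteDimensional ℝ E]
  [MeasurableSpace E] [BorelSpace E] {ι : Type*}

/-! ### the moment weight -/

/-- the moment weight -/
noncomputable def wd (e1 e2 y : E) : ℝ := 1 + |⟪e1, y⟫| + |⟪e2, y⟫|

lemma one_le_wd (e1 e2 y : E) : 1 ≤ wd e1 e2 y := by
  unfold wd
  have := abs_nonneg ⟪e1, y⟫
  have := abs_nonneg ⟪e2, y⟫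
  linarith

lemma wd_nonneg (e1 e2 y : E) : 0 ≤ wd e1 e2 y := zero_le_one.trans (one_le_wd e1 e2 y)

lemma measurable_wd (e1 e2 : E) : Measurable (wd e1 e2) := by
  unfold wd
  fun_prop

lemma integral_inner_sq (h : E) : ∫ x, ⟪h, x⟫ ^ 2 ∂(stdGaussian E) = ‖h‖ ^ 2 := by
  have h1 := variance_dual_stdGaussian (innerSL ℝ h)
  rw [innerSL_apply_norm, variance_eq_integral (by fun_prop), integral_strongDual_stdGaussian] at h1
  simpa using h1

lemma integrable_inner_sq (h : E) : Integrable (fun x => ⟪h, x⟫ ^ 2) (stdGaussian E) := by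
  have h1 : MemLp (innerSL ℝ h) 2 (stdGaussian E) :=
    IsGaussian.memLp_dual (stdGaussian E) (innerSL ℝ h) 2 (by simp)
  have h2 := h1.integrable_sq
  simpa using h2

/-- second moments -/
lemma int_inner_sq_le {e : E} (he : ‖e‖ ≤ 1) : ∫ x, ⟪e, x⟫ ^ 2 ∂(stdGaussian E) ≤ 1 := by
  rw [integral_inner_sq]
  have := norm_nonneg e
  nlinarith

lemma int_abs_inner_sqrt {u : E → ℝ} (hu : UI u) {e : E} (he : ‖e‖ ≤ 1) {m : ℝ}
    (hm : ∫ x, u x ∂(stdGaussian E) ≤ m) :
    ∫ x, u x * |⟪e, x⟫| ∂(stdGaussian E) ≤ Real.sqrt m := by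
  have hm0 : 0 ≤ m := (integral_nonneg hu.nonneg).trans hm
  have key : ∀ s : ℝ, 0 < s → ∫ x, u x * |⟪e, x⟫| ∂(stdGaussian E) ≤ (m / s + s) / 2 := by
    intro s hs
    have i1 : Integrable (fun x => u x / s / 2) (stdGaussian E) :=
      ((hu.integrable _).div_const s).div_const 2
    have i2 : Integrable (fun x => s * ⟪e, x⟫ ^ 2 / 2) (stdGaussian E) :=
      ((integrable_inner_sq e).const_mul s).div_const 2
    have h1 : ∫ x, u x * |⟪e, x⟫| ∂(stdGaussian E)
        ≤ ∫ x, (u x / s / 2 + s * ⟪e, x⟫ ^ 2 / 2) ∂(stdGaussian E) := by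
      refine integral_mono (H174.UI.int_abs_inner hu e) (i1.add i2) fun x => ?_
      show u x * |⟪e, x⟫| ≤ u x / s / 2 + s * ⟪e, x⟫ ^ 2 / 2
      have a0 := hu.nonneg x
      have a1 := hu.le_one x
      have a2 := abs_nonneg ⟪e, x⟫
      have a3 : ⟪e, x⟫ ^ 2 = |⟪e, x⟫| ^ 2 := (sq_abs _).symm
      rw [a3]
      have a4 : u x / s / 2 + s * |⟪e, x⟫| ^ 2 / 2 - u x * |⟪e, x⟫|
          = ((u x - s * |⟪e, x⟫|) ^ 2 + (u x - u x ^ 2)) / (2 * s) := by
        field_simp
        ring
      have a5 : 0 ≤ ((u x - s * |⟪e, x⟫|) ^ 2 + (u x - u x ^ 2)) / (2 * s) := by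
        apply div_nonneg _ (by linarith)
        nlinarith [sq_nonneg (u x - s * |⟪e, x⟫|)]
      linarith
    rw [integral_add i1 i2, integral_div, integral_div, integral_div, integral_const_mul] at h1
    have h2 := int_inner_sq_le he
    have h3 : (∫ x, u x ∂(stdGaussian E)) / s ≤ m / s := by gcongr
    have h4 : s * ∫ x, ⟪e, x⟫ ^ 2 ∂(stdGaussian E) ≤ s * 1 := mul_le_mul_of_nonneg_left h2 hs.le
    linarith
  rcases hm0.eq_or_lt with h | h
  · rw [← h, Real.sqrt_zero]
    refine le_of_forall_pos_le_add fun ε hε => ?_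
    have := key (2 * ε) (by linarith)
    rw [← h] at this
    simp at this
    linarith
  · have hs := Real.sqrt_pos.mpr h
    have := key (Real.sqrt m) hs
    rwa [Real.div_sqrt, add_self_div_two] at this

/-! ### moments in a fibre -/

section fibre

variable {W : Submodule ℝ E}

lemma norm_perp_le {e : E} (he : ‖e‖ ≤ 1) : ‖e - W.starProjection e‖ ≤ 1 := by
  have h1 : e - W.starProjection e = Wᗮ.starProjection e := by
    rw [Submodule.starProjection_orthogonal]; simp
  rw [h1]
  exact (Submodule.norm_starProjection_apply_le _ e).trans he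

lemma inner_mix (e x z : E) :
    ⟪e, mix W x z⟫ = ⟪e, W.starProjection x⟫ + ⟪e - W.starProjection e, z⟫ := by
  unfold H395.mix
  rw [inner_add_right, inner_sub_right, inner_sub_left,
    ← Submodule.inner_starProjection_left_eq_right W e z]

lemma UI_mix {f : E → ℝ} (hf : UI f) (x : E) : UI fun z => f (mix W x z) :=
  ⟨hf.meas.comp (measurable_mix_right W x), fun z => hf.nonneg _, fun z => hf.le_one _⟩

/-- **upper bound** for the moment of a small function in a fibre -/
lemma fib_wd_le {f : E → ℝ} (hf : UI f) {e1 e2 : E} (h1 : ‖e1‖ ≤ 1) (h2 : ‖e2‖ ≤ 1) {y : E}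
    {m : ℝ} (hm : fr W f y ≤ m) (hm1 : m ≤ 1) :
    fib W (fun z => ENNReal.ofReal (f z * wd e1 e2 z)) y
      ≤ ENNReal.ofReal (3 * Real.sqrt m * wd e1 e2 (W.starProjection y)) := by
  have hu := UI_mix (W := W) hf y
  set u : E → ℝ := fun z => f (mix W y z) with hudef
  have hm0 : 0 ≤ m := (fr_nonneg hf.nonneg y).trans hm
  have hmu : ∫ z, u z ∂(stdGaussian E) ≤ m := hm
  set f1 := e1 - W.starProjection e1 with hf1
  set f2 := e2 - W.starProjection e2 with hf2
  set s1 := ⟪e1, W.starProjection y⟫ with hs1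
  set s2 := ⟪e2, W.starProjection y⟫ with hs2
  have i1 := H174.UI.int_abs_inner hu f1
  have i2 := H174.UI.int_abs_inner hu f2
  have iU : Integrable (fun z => (1 + |s1| + |s2|) * u z) (stdGaussian E) :=
    (hu.integrable _).const_mul _
  have iS : Integrable (fun z => (1 + |s1| + |s2|) * u z + (u z * |⟪f1, z⟫| + u z * |⟪f2, z⟫|))
      (stdGaussian E) := iU.add (i1.add i2)
  have b1 := int_abs_inner_sqrt hu (norm_perp_le (W := W) h1) hmu
  have b2 := int_abs_inner_sqrt hu (norm_perp_le (W := W) h2) hmu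
  have hle : ∀ z, f (mix W y z) * wd e1 e2 (mix W y z)
      ≤ (1 + |s1| + |s2|) * u z + (u z * |⟪f1, z⟫| + u z * |⟪f2, z⟫|) := by
    intro z
    unfold wd
    rw [inner_mix, inner_mix]
    have a1 := abs_add_le s1 ⟪f1, z⟫
    have a2 := abs_add_le s2 ⟪f2, z⟫
    have a0 := hu.nonneg z
    calc f (mix W y z) * (1 + |s1 + ⟪f1, z⟫| + |s2 + ⟪f2, z⟫|)
        ≤ u z * (1 + (|s1| + |⟪f1, z⟫|) + (|s2| + |⟪f2, z⟫|)) := by
          apply mul_le_mul_of_nonneg_left _ a0
          linarith
      _ = _ := by ring
  unfold H395.fib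
  calc ∫⁻ z, ENNReal.ofReal (f (mix W y z) * wd e1 e2 (mix W y z)) ∂(stdGaussian E)
      ≤ ∫⁻ z, ENNReal.ofReal ((1 + |s1| + |s2|) * u z + (u z * |⟪f1, z⟫| + u z * |⟪f2, z⟫|))
          ∂(stdGaussian E) := lintegral_mono fun z => ENNReal.ofReal_le_ofReal (hle z)
    _ = ENNReal.ofReal (∫ z, ((1 + |s1| + |s2|) * u z + (u z * |⟪f1, z⟫| + u z * |⟪f2, z⟫|))
          ∂(stdGaussian E)) := by
        rw [ofReal_integral_eq_lintegral_ofReal iS]
        refine Filter.Eventually.of_forall fun z => ?_
        have a0 := hu.nonneg z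
        show 0 ≤ (1 + |s1| + |s2|) * u z + (u z * |⟪f1, z⟫| + u z * |⟪f2, z⟫|)
        positivity
    _ ≤ _ := by
        apply ENNReal.ofReal_le_ofReal
        have i12 : Integrable (fun z => u z * |⟪f1, z⟫| + u z * |⟪f2, z⟫|) (stdGaussian E) :=
          i1.add i2
        rw [integral_add iU i12, integral_add i1 i2, integral_const_mul]
        have c1 : (1 + |s1| + |s2|) * ∫ z, u z ∂(stdGaussian E)
            ≤ (1 + |s1| + |s2|) * Real.sqrt m := by
          apply mul_le_mul_of_nonneg_left _ (by positivity)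
          refine hmu.trans ?_
          rw [Real.le_sqrt hm0 hm0]
          nlinarith
        have c2 : wd e1 e2 (W.starProjection y) = 1 + |s1| + |s2| := rfl
        have c3 := Real.sqrt_nonneg m
        have c4 := abs_nonneg s1
        have c5 := abs_nonneg s2
        rw [c2]
        nlinarith [mul_nonneg c3 c4, mul_nonneg c3 c5]

/-- **lower bound** for the moment of a function of large mean in a fibre -/
lemma le_fib_wd {f : E → ℝ} (hf : UI f) {e1 e2 : E} (h1 : ‖e1‖ ≤ 1) (h2 : ‖e2‖ ≤ 1) {y : E}
    (hm : 3 / 4 ≤ fr W f y) :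
    ENNReal.ofReal (1 / 5 * wd e1 e2 (W.starProjection y))
      ≤ fib W (fun z => ENNReal.ofReal (f z * wd e1 e2 z)) y := by
  have hu := UI_mix (W := W) hf y
  set u : E → ℝ := fun z => f (mix W y z) with hudef
  have hmu : 3 / 4 ≤ ∫ z, u z ∂(stdGaussian E) := hm
  set f1 := e1 - W.starProjection e1 with hf1
  set f2 := e2 - W.starProjection e2 with hf2
  set s1 := ⟪e1, W.starProjection y⟫ with hs1
  set s2 := ⟪e2, W.starProjection y⟫ with hs2
  have i1 := H174.UI.int_abs_inner hu f1
  have i2 := H174.UI.int_abs_inner hu f2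
  have iU := hu.integrable (stdGaussian E)
  have hmu1 : ∫ z, u z ∂(stdGaussian E) ≤ 1 := by
    have := integral_mono iU (integrable_const (1:ℝ)) hu.le_one
    simpa using this
  have b1 := int_abs_inner_sqrt hu (norm_perp_le (W := W) h1) hmu1
  have b2 := int_abs_inner_sqrt hu (norm_perp_le (W := W) h2) hmu1
  rw [Real.sqrt_one] at b1 b2
  have iW : Integrable (fun z => f (mix W y z) * wd e1 e2 (mix W y z)) (stdGaussian E) := by
    have iS : Integrable (fun z => (1 + |s1| + |s2|) * u z + (u z * |⟪f1, z⟫| + u z * |⟪f2, z⟫|))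
      (stdGaussian E) := (iU.const_mul _).add (i1.add i2)
    refine iS.mono' ((hf.meas.mul (measurable_wd e1 e2)).comp
      (measurable_mix_right W y)).aestronglyMeasurable
      (Filter.Eventually.of_forall fun z => ?_)
    rw [Real.norm_eq_abs, abs_of_nonneg (mul_nonneg (hf.nonneg _) (wd_nonneg _ _ _))]
    unfold wd
    rw [inner_mix, inner_mix]
    have a1 := abs_add_le s1 ⟪f1, z⟫
    have a2 := abs_add_le s2 ⟪f2, z⟫
    have a0 := hu.nonneg z
    calc f (mix W y z) * (1 + |s1 + ⟪f1, z⟫| + |s2 + ⟪f2, z⟫|)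
        ≤ u z * (1 + (|s1| + |⟪f1, z⟫|) + (|s2| + |⟪f2, z⟫|)) := by
          apply mul_le_mul_of_nonneg_left _ a0
          linarith
      _ = _ := by ring
  -- three lower bounds
  have low0 : 3 / 4 ≤ ∫ z, f (mix W y z) * wd e1 e2 (mix W y z) ∂(stdGaussian E) := by
    refine hmu.trans (integral_mono iU iW fun z => ?_)
    show u z ≤ f (mix W y z) * wd e1 e2 (mix W y z)
    exact le_mul_of_one_le_right (hu.nonneg z) (one_le_wd _ _ _)
  have low : ∀ (s : ℝ) (f0 : E), ‖f0‖ ≤ 1 →
      (∀ z, 1 + |s + ⟪f0, z⟫| ≤ wd e1 e2 (mix W y z)) →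
      3 / 4 + 3 / 4 * |s| - 1 ≤ ∫ z, f (mix W y z) * wd e1 e2 (mix W y z) ∂(stdGaussian E) := by
    intro s f0 hn hz
    have j1 := H174.UI.int_abs_inner hu f0
    have bb := int_abs_inner_sqrt hu hn hmu1
    rw [Real.sqrt_one] at bb
    have j2 : Integrable (fun z => (1 + |s|) * u z - u z * |⟪f0, z⟫|) (stdGaussian E) :=
      (iU.const_mul _).sub j1
    have h3 : ∫ z, ((1 + |s|) * u z - u z * |⟪f0, z⟫|) ∂(stdGaussian E)
        ≤ ∫ z, f (mix W y z) * wd e1 e2 (mix W y z) ∂(stdGaussian E) := by
      refine integral_mono j2 iW fun z => ?_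
      show (1 + |s|) * u z - u z * |⟪f0, z⟫| ≤ f (mix W y z) * wd e1 e2 (mix W y z)
      have a0 := hu.nonneg z
      have a1 : |s| - |⟪f0, z⟫| ≤ |s + ⟪f0, z⟫| := by
        have := abs_sub_abs_le_abs_sub s (-⟪f0, z⟫)
        rwa [abs_neg, sub_neg_eq_add] at this
      calc (1 + |s|) * u z - u z * |⟪f0, z⟫| = u z * (1 + (|s| - |⟪f0, z⟫|)) := by ring
        _ ≤ u z * wd e1 e2 (mix W y z) := by
            apply mul_le_mul_of_nonneg_left _ a0
            have := hz z
            linarith
    rw [integral_sub (iU.const_mul _) j1, integral_const_mul] at h3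
    have h4 := abs_nonneg s
    nlinarith
  have l1 := low s1 f1 (norm_perp_le h1) (fun z => by
    unfold wd; rw [inner_mix, inner_mix]
    have := abs_nonneg (⟪e2, W.starProjection y⟫ + ⟪e2 - W.starProjection e2, z⟫)
    linarith)
  have l2 := low s2 f2 (norm_perp_le h2) (fun z => by
    unfold wd; rw [inner_mix, inner_mix]
    have := abs_nonneg (⟪e1, W.starProjection y⟫ + ⟪e1 - W.starProjection e1, z⟫)
    linarith)
  unfold H395.fib
  rw [← ofReal_integral_eq_lintegral_ofReal iW (Filter.Eventually.of_forall fun z =>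
    mul_nonneg (hf.nonneg _) (wd_nonneg _ _ _))]
  apply ENNReal.ofReal_le_ofReal
  have c2 : wd e1 e2 (W.starProjection y) = 1 + |s1| + |s2| := rfl
  rw [c2]
  rcases le_total |s1| |s2| with h | h <;>
    rcases le_total |s1| (4 / 3) with h' | h' <;>
    rcases le_total |s2| (4 / 3) with h'' | h'' <;> linarith

end fibre

/-! ### the charge with the square root of the cap -/

/-- the charge of the moments: first killed or truncated label, square root of the cap -/
noncomputable def exw : FT E ι → (ι → E → ℝ) → E → ℝ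
  | leaf _, _ => fun _ => 0
  | node W c Z cls T, g => fun x => if x ∈ Z then 1 - pay (T (cls x)) g x else
      if val W cls T g x < 1 / 8 then 20 * Real.sqrt (c x) * (1 - pay (T (cls x)) g x)
        else exw (T (cls x)) g x

section main

variable {c0 k : ℝ} {W V : Submodule ℝ E} {c : E → ℝ} {Z : Set E} {cls : E → ℕ} {T : ℕ → FT E ι}
  {t : FT E ι} {g : ι → E → ℝ} {x y : E}

lemma exw_node : exw (node W c Z cls T) g x = if x ∈ Z then 1 - pay (T (cls x)) g x else
      if val W cls T g x < 1 / 8 then 20 * Real.sqrt (c x) * (1 - pay (T (cls x)) g x)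
        else exw (T (cls x)) g x := rfl

lemma exw_nonneg (hT : Good c0 t) (hg : ∀ i, UI (g i)) (x : E) : 0 ≤ exw t g x := by
  induction t with
  | leaf i => exact le_rfl
  | node W c Z cls T ih =>
    obtain ⟨hp, hab, hk⟩ := hT
    have h2 := (pay_UI (hk (cls x)) hg).le_one x
    rw [exw_node]
    split_ifs with a b
    · linarith
    · exact mul_nonneg (by positivity) (by linarith)
    · exact ih _ (hk _)

lemma measurable_exw (hT : Good c0 t) (hc : c0 ≤ 1 / 16) (hg : ∀ i, UI (g i)) :
    Measurable (exw t g) := by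
  induction t with
  | leaf i => exact measurable_const
  | node W c Z cls T ih =>
    obtain ⟨hp, hab, hk⟩ := hT
    have h1 : Measurable fun y => exw (T (cls y)) g y :=
      measurable_selR (F := fun n => exw (T n) g) (fun n => ih n (hk n)) hp.mcls
    have h2 := (pay_child_UI hp hk hg).meas
    have h3 := (val_UI hp hk hc hg).meas
    exact Measurable.ite hp.measZ (measurable_const.sub h2)
      (Measurable.ite (measurableSet_lt h3 measurable_const)
        (((Real.continuous_sqrt.measurable.comp hp.meas).const_mul 20).mul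
          (measurable_const.sub h2)) h1)

lemma UI_absdiff_pay (hT : Good c0 t) (hc : c0 ≤ 1 / 16) (hg : ∀ i, UI (g i)) :
    UI fun y => |pay t g y - fl t g y| := by
  have u := fl_UI hT hc hg
  have v := pay_UI hT hg
  refine ⟨measurable_abs.comp (v.meas.sub u.meas), fun x => abs_nonneg _, fun x => ?_⟩
  have q1 := v.nonneg x
  have q2 := v.le_one x
  have q3 := u.nonneg x
  have q4 := u.le_one x
  rw [abs_le]
  constructor <;> linarith

/-- **moments at every label**, charged at the first killed or truncated label -/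
theorem fib_close_wd (hk0 : 0 ≤ k) (hk : k ≤ 1 / 8) (hT : Good c0 t) (hc : c0 ≤ 1 / 16)
    (hg : ∀ i, UI (g i)) (ha : Above V t) (hC : CpI k t) {e1 e2 : E} (h1 : ‖e1‖ ≤ 1)
    (h2 : ‖e2‖ ≤ 1) (x : E) :
    fib V (fun y => ENNReal.ofReal (|pay t g y - fl t g y| * wd e1 e2 y)) x
      ≤ fib V (fun y => ENNReal.ofReal (exw t g y * wd e1 e2 y)) x := by
  induction t generalizing V x with
  | leaf i =>
    refine fib_mono (fun y => ENNReal.ofReal_le_ofReal ?_) x
    have e : |pay (leaf i) g y - fl (leaf i) g y| = 0 := by simp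
    have e' : exw (leaf i) g y = 0 := rfl
    rw [e, e']
  | node W c Z cls T ih =>
    have hTT := hT
    obtain ⟨hp, hab, hG⟩ := hT
    have uA := UI_absdiff_pay hTT hc hg
    have m1 : Measurable fun y => ENNReal.ofReal (|pay (node W c Z cls T) g y
        - fl (node W c Z cls T) g y| * wd e1 e2 y) :=
      (uA.meas.mul (measurable_wd e1 e2)).ennreal_ofReal
    have m2 : Measurable fun y => ENNReal.ofReal (exw (node W c Z cls T) g y * wd e1 e2 y) :=
      ((measurable_exw hTT hc hg).mul (measurable_wd e1 e2)).ennreal_ofReal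
    rw [← fib_tower ha m1, ← fib_tower ha m2]
    refine fib_mono (fun y => ?_) x
    by_cases hy : y ∈ Z
    · apply le_of_eq
      apply fib_congr
      intro z hz
      have hz' := (mem_iff_of hp.invZ hz).2 hy
      rw [fl_node, if_pos hz', exw_node, if_pos hz', pay_node, abs_of_nonpos]
      · congr 1; ring
      · linarith [(pay_UI (hG (cls z)) hg).le_one z]
    · rcases lt_or_ge (val W cls T g y) (1 / 8) with hF | hF
      · -- truncated label
        have hcy := hp.le y hy
        have hc0' := hp.nonneg y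
        have hF0 := (val_UI hp hG hc hg).nonneg y
        have h3 : val W cls T g y = fr W (fl (T (cls y)) g) y :=
          fr_sel hp.icls (fun n => fl (T n) g) y
        have h4 := close_le hk0 (by linarith) (hG (cls y)) hc hg (hab _) (hC _) hp.nonneg hy
        have h5 := sub_tr_le hc0' (hcy.trans hc) hF0
        have h6 := fr_close_node hp hG hc hg hy
        have h7 : 4 * k * c y ≤ 1 / 2 * c y := by nlinarith
        have hm : fr W (fun z => |pay (node W c Z cls T) g z - fl (node W c Z cls T) g z|) y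
            ≤ 3 / 2 * c y := by linarith
        have hup := fib_wd_le (W := W) uA h1 h2 (m := 3 / 2 * c y) hm (by linarith)
        have h6 : 3 / 4 ≤ fr W (fun z => 1 - pay (T (cls y)) g z) y := by
          have a1 : fr W (fun z => 1 - pay (T (cls y)) g z) y
              = 1 - fr W (pay (T (cls y)) g) y := by
            rw [fr_sub (Bd.const 1) (Bd.of_UI (pay_UI (hG _) hg)), fr_const]
          have a2 : fr W (pay (T (cls y)) g) y ≤ fr W (fl (T (cls y)) g) y
              + fr W (fun z => |pay (T (cls y)) g z - fl (T (cls y)) g z|) y := by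
            rw [← fr_add (Bd.of_UI (fl_UI (hG _) hc hg))
              ((Bd.of_UI (pay_UI (hG _) hg)).sub (Bd.of_UI (fl_UI (hG _) hc hg))).abs]
            refine fr_mono (Bd.of_UI (pay_UI (hG _) hg)) ((Bd.of_UI (fl_UI (hG _) hc hg)).add
              ((Bd.of_UI (pay_UI (hG _) hg)).sub (Bd.of_UI (fl_UI (hG _) hc hg))).abs)
              (fun z => ?_) y
            linarith [le_abs_self (pay (T (cls y)) g z - fl (T (cls y)) g z)]
          rw [h3] at hF
          have a3 : 4 * k * c y ≤ 1 / 16 := by nlinarith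
          rw [a1]
          linarith
        have uP : UI fun z => 1 - pay (T (cls y)) g z := by
          have v := pay_UI (hG (cls y)) hg
          exact ⟨measurable_const.sub v.meas, fun z => by linarith [v.le_one z],
            fun z => by linarith [v.nonneg z]⟩
        have hlow := le_fib_wd (W := W) uP h1 h2 h6
        have hsq : Real.sqrt (3 / 2 * c y) ≤ 4 / 3 * Real.sqrt (c y) := by
          rw [Real.sqrt_le_left (by positivity), mul_pow, Real.sq_sqrt hc0']
          linarith
        refine hup.trans ?_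
        have hw0 := wd_nonneg e1 e2 (W.starProjection y)
        have hs0 := Real.sqrt_nonneg (c y)
        have e : fib W (fun z => ENNReal.ofReal (exw (node W c Z cls T) g z * wd e1 e2 z)) y
            = ENNReal.ofReal (20 * Real.sqrt (c y))
              * fib W (fun z => ENNReal.ofReal ((1 - pay (T (cls y)) g z) * wd e1 e2 z)) y := by
          have hms : Measurable fun z => ENNReal.ofReal ((1 - pay (T (cls y)) g z)
              * wd e1 e2 z) := (uP.meas.mul (measurable_wd e1 e2)).ennreal_ofReal
          rw [← H395.fib_mul (H395.inv_const W (ENNReal.ofReal (20 * Real.sqrt (c y)))) hms]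
          apply fib_congr
          intro z hz
          rw [exw_node, if_neg (fun h => hy ((mem_iff_of hp.invZ hz).1 h)),
            (invR_val W cls T g).eq_of hz, if_pos hF, hp.icls.eq_of hz, hp.inv.eq_of hz,
            mul_assoc, ENNReal.ofReal_mul (by positivity)]
        rw [e]
        calc ENNReal.ofReal (3 * Real.sqrt (3 / 2 * c y) * wd e1 e2 (W.starProjection y))
            ≤ ENNReal.ofReal (20 * Real.sqrt (c y) * (1 / 5 * wd e1 e2 (W.starProjection y))) := by
              apply ENNReal.ofReal_le_ofReal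
              nlinarith [mul_le_mul_of_nonneg_right hsq hw0]
          _ = ENNReal.ofReal (20 * Real.sqrt (c y))
              * ENNReal.ofReal (1 / 5 * wd e1 e2 (W.starProjection y)) :=
              ENNReal.ofReal_mul (by positivity)
          _ ≤ _ := by gcongr
      · -- not truncated
        have hcy := hp.le y hy
        have hph : phi (c y) (val W cls T g y) = 1 := phi_self (hcy.trans hc) hF
        have e1' : fib W (fun z => ENNReal.ofReal (|pay (node W c Z cls T) g z
            - fl (node W c Z cls T) g z| * wd e1 e2 z)) y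
            = fib W (fun z => ENNReal.ofReal (|pay (T (cls y)) g z - fl (T (cls y)) g z|
              * wd e1 e2 z)) y := by
          apply fib_congr
          intro z hz
          rw [fl_node, if_neg (fun h => hy ((mem_iff_of hp.invZ hz).1 h)), hp.inv.eq_of hz,
            (invR_val W cls T g).eq_of hz, hph, pay_node, hp.icls.eq_of hz, one_mul]
        have e2' : fib W (fun z => ENNReal.ofReal (exw (node W c Z cls T) g z * wd e1 e2 z)) y
            = fib W (fun z => ENNReal.ofReal (exw (T (cls y)) g z * wd e1 e2 z)) y := by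
          apply fib_congr
          intro z hz
          rw [exw_node, if_neg (fun h => hy ((mem_iff_of hp.invZ hz).1 h)),
            (invR_val W cls T g).eq_of hz, if_neg (not_lt.mpr hF), hp.icls.eq_of hz]
        rw [e1', e2']
        exact ih (cls y) (hG _) (hab _) ((hC (cls y)).cpI) y

end main

end Vale.Agent.P262.H712.BW
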