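import Vale.Agent.P262.M1.Fld
import Vale.Agent.P262.H59.R12
import Vale.Agent.P262.H118.SysBlk
import Vale.Agent.P262.H712.FieldF4

/-!
# P262, milestone 1: the inner rotation on `S : Sys E` in the form `Gp`
-/

set_option linter.all false

open MeasureTheory ProbabilityTheory Set
open scoped ENNReal RealInnerProductSpace Classical
open Vale.Agent.P262.H118 (L Iv st en ONB K1 rotE ON tau L_mono)
open Vale.Agent.P262.H395 (fib mix Inv Fixes)
open Vale.Agent.P262.H493 (star)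
open Vale.Agent.P262.H654 (Lev fl vis wt kt al hid nk fr InvR Good LevOK Bd sg Caps)
open Vale.Agent.P262.H847 (UI)
open Vale.Agent.P262.H712

namespace Vale.Agent.P262.M1.Sys

variable {E : Type*} [NormedAddCommGroup E] [InnerProductSpace ℝ E] [FiniteDimensional ℝ E]
  [MeasurableSpace E] [BorelSpace E] (S : Sys E)

/-! ### caps as a chain of levels -/

lemma rg_d_pos : 0 < S.d := by have := S.hd2; omega

lemma rg_lf_lt : S.lf < S.d := by unfold lf; have := S.hd2; omega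

lemma rg_Ioc_lf (j : ℕ) : Finset.Ioc j S.lf = Finset.Ico (j + 1) S.d := by
  have := S.hd2
  ext i
  simp only [Finset.mem_Ioc, Finset.mem_Ico]
  unfold lf
  omega

lemma rg_child_real {i : ℕ} (hi : i < S.d) {x : E} (hx : x ∉ S.cp.Z i) :
    fr (L S.f i) (fun y => nk (S.lev (i + 1)) y * S.cp.A (i + 1) y) x ≤ S.cp.kap * S.cp.A i x := by
  have hA := S.cp.A_pos i x
  have hk := S.cp.kap_pos
  have hb : Bd fun y => nk (S.lev (i + 1)) y * S.cp.A (i + 1) y := by
    refine ⟨?_, S.cp.b0, fun y => ?_⟩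
    · refine Measurable.mul ?_ (S.cp.A_meas _)
      exact Measurable.ite (S.measurableSet_Z (i + 1)) measurable_const measurable_const
    · unfold nk
      by_cases h : y ∈ (S.lev (i + 1)).Z
      · rw [if_pos h, zero_mul, abs_zero]; exact S.cp.b0_pos.le
      · rw [if_neg h, one_mul, abs_of_pos (S.cp.A_pos _ _)]
        exact S.cp.A_le _ _ h
  have h0 : ∀ y, 0 ≤ nk (S.lev (i + 1)) y * S.cp.A (i + 1) y := fun y =>
    mul_nonneg (H654.nk_nonneg _ _) (S.cp.A_pos _ _).le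
  rw [← ENNReal.ofReal_le_ofReal_iff (by positivity), H654.ofReal_fr hb h0]
  refine le_trans (H395.fib_mono (fun y => ?_) x) (S.cp.child i hi x hx)
  refine le_trans (ENNReal.ofReal_le_ofReal ?_) le_self_add
  exact mul_le_of_le_one_left (S.cp.A_pos _ _).le (H654.nk_le_one _ _)

lemma rg_caps_lvs (hM : 0 ≤ S.M) (i b : ℕ) (hb : b ≤ S.d) :
    H654.Caps S.cp.kap (S.lev i) (S.lvs (i + 1) b) := by
  induction hn : b - i generalizing i with
  | zero =>
    rw [S.lvs_nil (by omega)]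
    trivial
  | succ n ih =>
    by_cases h : i + 1 < b
    · rw [S.lvs_cons h]
      refine ⟨fun x hx => ?_, ih (i + 1) (by omega)⟩
      have h1 := S.rg_child_real (i := i) (by omega) hx
      have e : fr (S.lev i).W (fun y => nk (S.lev (i + 1)) y * (S.lev (i + 1)).c y) x
          = (S.M + 1) * fr (L S.f i) (fun y => nk (S.lev (i + 1)) y * S.cp.A (i + 1) y) x := by
        rw [← H654.fr_const_mul]
        congr 1
        funext y
        show nk (S.lev (i + 1)) y * ((S.M + 1) * S.cp.A (i + 1) y) = _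
        ring
      rw [e]
      calc (S.M + 1) * fr (L S.f i) (fun y => nk (S.lev (i + 1)) y * S.cp.A (i + 1) y) x
          ≤ (S.M + 1) * (S.cp.kap * S.cp.A i x) := mul_le_mul_of_nonneg_left h1 (by linarith)
        _ = S.cp.kap * ((S.M + 1) * S.cp.A i x) := by ring
    · rw [S.lvs_nil (by omega)]
      trivial

lemma rg_hidOK_lvs {c0 : ℝ} (hM : 0 ≤ S.M) (hcb : (S.M + 1) * S.cp.b0 ≤ c0) (hc : c0 ≤ 1 / 16)
    (hk : S.cp.kap ≤ 1 / 2) {g : E → ℝ} (hg : UI g) (a b : ℕ) (hb : b ≤ S.d) :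
    HidOK (S.lvs a b) g := by
  refine caps_hidOK S.cp.kap_pos.le hk (S.good_lvs hM hcb a b) hc hg ?_
  intro q N h
  by_cases hab : a < b
  · rw [S.lvs_cons hab] at h
    obtain ⟨rfl, rfl⟩ := List.cons.inj h
    exact S.rg_caps_lvs hM a b hb
  · rw [S.lvs_nil (by omega)] at h
    simp at h

/-- caps are not too small -/
lemma rg_exp_le_A (hk : S.cp.kap ≤ 1) {i : ℕ} (hi : i < S.d) {x : E} (hx : x ∉ S.cp.Z i) :
    Real.exp (-S.R ^ 2 / 8) ≤ S.cp.A i x := by
  have hd := S.hd2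
  obtain ⟨n, hn⟩ : ∃ n, n = S.d - 1 - i := ⟨_, rfl⟩
  induction n generalizing i x with
  | zero =>
    have h1 : i = S.d - 1 := by omega
    subst h1
    refine le_trans (Real.exp_le_exp.mpr ?_) (S.cp.leaf x hx)
    nlinarith [sq_nonneg ‖(L S.f (S.d - 1)).starProjection x‖]
  | succ n ih =>
    have h1 := S.cp.child i hi x hx
    have hA := S.cp.A_pos i x
    have h2 : ENNReal.ofReal (Real.exp (-S.R ^ 2 / 8))
        ≤ fib (L S.f i) (fun y => ENNReal.ofReal (S.cp.A (i + 1) y)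
          + (S.cp.Z (i + 1)).indicator 1 y) x := by
      rw [← H395.fib_const (L S.f i) (ENNReal.ofReal (Real.exp (-S.R ^ 2 / 8))) x]
      refine H395.fib_mono (fun y => ?_) x
      by_cases hy : y ∈ S.cp.Z (i + 1)
      · rw [indicator_of_mem hy]
        refine le_trans ?_ le_add_self
        rw [Pi.one_apply, ← ENNReal.ofReal_one]
        apply ENNReal.ofReal_le_ofReal
        rw [Real.exp_le_one_iff]
        nlinarith [sq_nonneg S.R]
      · refine le_trans ?_ le_self_add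
        exact ENNReal.ofReal_le_ofReal (ih (by omega) hy (by omega))
    have h3 := h2.trans h1
    rw [ENNReal.ofReal_le_ofReal_iff (mul_nonneg S.cp.kap_pos.le hA.le)] at h3
    exact h3.trans (mul_le_of_le_one_left hA.le hk)

lemma rg_alive_norm {i : ℕ} (hi : i < S.d) {x : E} (hx : x ∉ S.cp.Z i) :
    ‖(L S.f i).starProjection x‖ ≤ S.R := by
  refine S.cp.alive i hi _ (Submodule.starProjection_apply_mem _ x) ?_
  have h1 : (L S.f i).starProjection x - x ∈ (L S.f i)ᗮ := by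
    rw [← Submodule.starProjection_apply_eq_zero_iff, map_sub, H395.proj_proj, sub_self]
  have h2 := S.cp.Z_cyl i x _ h1
  rw [add_sub_cancel] at h2
  exact fun h => hx (h2.mp h)

/-! ### the charges -/

section charges

variable {S} {g g' : E → ℝ}

lemma rg_rotA_lvs_le {c0 : ℝ} (hM : 0 ≤ S.M) (hcb : (S.M + 1) * S.cp.b0 ≤ c0) (hg : UI g)
    (hg' : UI g') (a b : ℕ) (x : E) :
    rotA (S.lvs a b) g g' x ≤ ∑ i ∈ Finset.Ico a b,
      (if x ∈ S.cp.Z i then dl (L S.f i) g g' x else 24 * xx (S.lev i) g g' x) := by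
  have h0 : ∀ i, 0 ≤ (if x ∈ S.cp.Z i then dl (L S.f i) g g' x
      else 24 * xx (S.lev i) g g' x) := by
    intro i
    split_ifs
    · exact (UI.dl hg hg' _).nonneg x
    · have := xx_nonneg (S.levOK hM hcb i) hg hg' x
      linarith
  induction hn : b - a generalizing a with
  | zero =>
    rw [S.lvs_nil (by omega)]
    exact Finset.sum_nonneg fun i _ => h0 i
  | succ n ih =>
    rw [S.lvs_cons (by omega), Finset.sum_eq_sum_Ico_succ_bot (by omega), rotA_cons]
    have h1 := ih (a + 1) (by omega)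
    have h2 : 0 ≤ ∑ i ∈ Finset.Ico (a + 1) b, (if x ∈ S.cp.Z i then dl (L S.f i) g g' x
      else 24 * xx (S.lev i) g g' x) := Finset.sum_nonneg fun i _ => h0 i
    by_cases hz : x ∈ S.cp.Z a
    · have hz' : x ∈ (S.lev a).Z := hz
      rw [if_pos hz, if_pos hz']
      have e : dl (S.lev a).W g g' x = dl (L S.f a) g g' x := rfl
      rw [e]
      linarith
    · have hz' : x ∉ (S.lev a).Z := hz
      rw [if_neg hz, if_neg hz']
      linarith

lemma rg_rotB_lvs_le (hM : 0 ≤ S.M) (hg : UI g) (a b : ℕ) (x : E) :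
    rotB (S.lvs a b) g x ≤ ∑ i ∈ Finset.Ico a b,
      (if x ∈ S.cp.Z i then 1 - g x else (S.M + 1) * S.cp.A i x * (1 - g x)) := by
  have hg0 : 0 ≤ 1 - g x := by linarith [hg.le_one x]
  have h0 : ∀ i, 0 ≤ (if x ∈ S.cp.Z i then 1 - g x
      else (S.M + 1) * S.cp.A i x * (1 - g x)) := by
    intro i
    have := S.cp.A_pos i x
    split_ifs
    · exact hg0
    · positivity
  induction hn : b - a generalizing a with
  | zero =>
    rw [S.lvs_nil (by omega)]
    exact Finset.sum_nonneg fun i _ => h0 i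
  | succ n ih =>
    rw [S.lvs_cons (by omega), Finset.sum_eq_sum_Ico_succ_bot (by omega), rotB_cons]
    have h1 := ih (a + 1) (by omega)
    have h2 : 0 ≤ ∑ i ∈ Finset.Ico (a + 1) b, (if x ∈ S.cp.Z i then 1 - g x
      else (S.M + 1) * S.cp.A i x * (1 - g x)) := Finset.sum_nonneg fun i _ => h0 i
    by_cases hz : x ∈ S.cp.Z a
    · have hz' : x ∈ (S.lev a).Z := hz
      rw [if_pos hz, if_pos hz']
      linarith
    · have hz' : x ∉ (S.lev a).Z := hz
      rw [if_neg hz, if_neg hz']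
      have e : (S.lev a).c x = (S.M + 1) * S.cp.A a x := rfl
      rw [e]
      linarith

end charges

/-- old payoff in leaf coordinates -/
noncomputable def rg_pay0 (m : ℕ) : E → ℝ := ind (S.X S.lf m)ᶜ

lemma rg_pay0_UI (m : ℕ) : UI (S.rg_pay0 m) := ind_UI (S.measurableSet_X S.lf m).compl

lemma rg_gm_pay0 (m m' : ℕ) (x : E) :
    gm (S.rg_pay0 m) (S.rg_pay0 m') x = ind (S.X S.lf m ∩ S.X S.lf m')ᶜ x := by
  unfold gm rg_pay0 ind
  by_cases h : x ∈ S.X S.lf m <;> by_cases h' : x ∈ S.X S.lf m' <;>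
    simp [Set.indicator, h, h']

lemma rg_abs_pay0 (m m' : ℕ) (x : E) :
    |S.rg_pay0 m x - S.rg_pay0 m' x| = ind (symmDiff (S.X S.lf m) (S.X S.lf m')) x := by
  unfold rg_pay0 ind
  by_cases h : x ∈ S.X S.lf m <;> by_cases h' : x ∈ S.X S.lf m' <;>
    simp [Set.indicator, Set.mem_symmDiff, h, h']

/-- the payoff differences are `Dl`, `Dc` -/
lemma rg_ofReal_dl {m i : ℕ} (hO : S.Out i m) (hi : i ≤ S.lf) (x : E) :
    ENNReal.ofReal (dl (L S.f i) (S.rg_pay0 m) (S.rg_pay0 (m + 1)) x) = S.Dl i m x := by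
  have e : dl (L S.f i) (S.rg_pay0 m) (S.rg_pay0 (m + 1)) x
      = fr (L S.f i) (ind (symmDiff (S.X S.lf m) (S.X S.lf (m + 1)))) x := by
    unfold dl
    congr 1
    funext y
    rw [abs_sub_comm]
    exact S.rg_abs_pay0 m (m + 1) y
  rw [e, fib_ind ((S.measurableSet_X _ _).symmDiff (S.measurableSet_X _ _)), S.Dl_eq hO hi]

lemma rg_ofReal_gm {m i : ℕ} (hO : S.Out i m) (hi : i ≤ S.lf) (x : E) :
    ENNReal.ofReal (fr (L S.f i) (gm (S.rg_pay0 m) (S.rg_pay0 (m + 1))) x) = S.Dc i m x := by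
  have e : gm (S.rg_pay0 m) (S.rg_pay0 (m + 1)) = ind (S.X S.lf m ∩ S.X S.lf (m + 1))ᶜ :=
    funext fun y => S.rg_gm_pay0 m (m + 1) y
  rw [e, fib_ind ((S.measurableSet_X _ _).inter (S.measurableSet_X _ _)).compl, S.Dc_eq hO hi]

lemma rg_Dc_le_one (i m : ℕ) (x : E) : S.Dc i m x ≤ 1 := by
  unfold Dc
  refine H395.fib_le_one (fun y => ?_) x
  by_cases h : y ∈ (S.X i m ∩ S.X i (m + 1))ᶜ
  · rw [indicator_of_mem h]; rfl
  · rw [indicator_of_notMem h]; exact zero_le_one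

/-- one label: charge of the field below `48 (M+1) Xr` -/
lemma rg_ofReal_charge_le (hM : 0 ≤ S.M) {c0 : ℝ} (hcb : (S.M + 1) * S.cp.b0 ≤ c0) {m i : ℕ}
    (hO : S.Out i m) (hi : i ≤ S.lf) (x : E) :
    ENNReal.ofReal (if x ∈ S.cp.Z i then dl (L S.f i) (S.rg_pay0 m) (S.rg_pay0 (m + 1)) x
      else 24 * xx (S.lev i) (S.rg_pay0 m) (S.rg_pay0 (m + 1)) x)
      ≤ ENNReal.ofReal (48 * (S.M + 1)) * S.Xr i m x := by
  have hM1 : 1 ≤ 48 * (S.M + 1) := by linarith
  have hone : (1 : ℝ≥0∞) ≤ ENNReal.ofReal (48 * (S.M + 1)) := by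
    rw [← ENNReal.ofReal_one]; exact ENNReal.ofReal_le_ofReal hM1
  have u := S.rg_pay0_UI m
  have u' := S.rg_pay0_UI (m + 1)
  by_cases hz : x ∈ S.cp.Z i
  · rw [if_pos hz, S.rg_ofReal_dl hO hi]
    unfold Xr a
    rw [if_pos hz, one_mul]
    refine le_trans ?_ (le_mul_of_one_le_left' hone)
    calc S.Dl i m x = S.Dl i m x / 1 := (div_one _).symm
      _ ≤ S.Dl i m x / S.Dc i m x := ENNReal.div_le_div_left (S.rg_Dc_le_one i m x) _
  · rw [if_neg hz]
    unfold Xr a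
    rw [if_neg hz]
    set δ := dl (L S.f i) (S.rg_pay0 m) (S.rg_pay0 (m + 1)) x with hδ
    set D := fr (L S.f i) (gm (S.rg_pay0 m) (S.rg_pay0 (m + 1))) x with hD
    have hA := S.cp.A_pos i x
    have hδ0 : 0 ≤ δ := (UI.dl u u' _).nonneg x
    have hδD : δ ≤ D := by
      refine H654.fr_mono (Bd.of_UI (UI.absdiff u u')) (Bd.of_UI (UI.gm u u')) (fun y => ?_) x
      have h1 := u.nonneg y
      have h2 := u'.nonneg y
      unfold gm
      rw [abs_le]
      constructor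
      · have := le_max_left (S.rg_pay0 m y) (S.rg_pay0 (m + 1) y)
        linarith
      · have := le_max_right (S.rg_pay0 m y) (S.rg_pay0 (m + 1) y)
        linarith
    set c := (S.lev i).c x with hc
    have hcA : c = (S.M + 1) * S.cp.A i x := rfl
    have hc0 : 0 ≤ c := by rw [hcA]; positivity
    have hY : xx (S.lev i) (S.rg_pay0 m) (S.rg_pay0 (m + 1)) x ≤ 2 * c * (δ / max D c) := by
      unfold xx
      have h1 := min_le_right (ql (S.lev i).W (S.rg_pay0 m) x) (δ / max D c)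
      have h2 := min_le_right (ql (S.lev i).W (S.rg_pay0 (m + 1)) x) (δ / max D c)
      calc c * (min (ql (S.lev i).W (S.rg_pay0 m) x) (δ / max D c)
            + min (ql (S.lev i).W (S.rg_pay0 (m + 1)) x) (δ / max D c))
          ≤ c * (δ / max D c + δ / max D c) := mul_le_mul_of_nonneg_left (add_le_add h1 h2) hc0
        _ = _ := by ring
    have hdd : ENNReal.ofReal (δ / max D c) ≤ S.Dl i m x / S.Dc i m x := by
      rcases (hδ0.trans hδD).eq_or_lt with h | h
      · have : δ = 0 := le_antisymm (by rw [h]; exact hδD) hδ0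
        rw [this, zero_div, ENNReal.ofReal_zero]
        exact zero_le
      · rw [← S.rg_ofReal_dl hO hi, ← S.rg_ofReal_gm hO hi, ← hδ, ← hD,
          ← ENNReal.ofReal_div_of_pos h]
        exact ENNReal.ofReal_le_ofReal (div_le_div_of_nonneg_left hδ0 h (le_max_left _ _))
    calc ENNReal.ofReal (24 * xx (S.lev i) (S.rg_pay0 m) (S.rg_pay0 (m + 1)) x)
        ≤ ENNReal.ofReal (48 * (S.M + 1) * S.cp.A i x * (δ / max D c)) := by
          apply ENNReal.ofReal_le_ofReal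
          calc 24 * xx (S.lev i) (S.rg_pay0 m) (S.rg_pay0 (m + 1)) x
              ≤ 24 * (2 * c * (δ / max D c)) := by linarith
            _ = _ := by rw [hcA]; ring
      _ = ENNReal.ofReal (48 * (S.M + 1)) * (ENNReal.ofReal (S.cp.A i x)
          * ENNReal.ofReal (δ / max D c)) := by
          rw [ENNReal.ofReal_mul (by positivity), ENNReal.ofReal_mul (by linarith), mul_assoc]
      _ ≤ _ := by gcongr

lemma rg_ofReal_rotA_le (hM : 0 ≤ S.M) {c0 : ℝ} (hcb : (S.M + 1) * S.cp.b0 ≤ c0) {m : ℕ}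
    (hm : S.IsRot m) (x : E) :
    ENNReal.ofReal (rotA (S.lvs (S.el.jj m + 1) S.d) (S.rg_pay0 m) (S.rg_pay0 (m + 1)) x)
      ≤ ENNReal.ofReal (48 * (S.M + 1)) * ∑ i ∈ Finset.Ioc (S.el.jj m) S.lf, S.Xr i m x := by
  have u := S.rg_pay0_UI m
  have u' := S.rg_pay0_UI (m + 1)
  refine (ENNReal.ofReal_le_ofReal (rg_rotA_lvs_le hM hcb u u' _ _ x)).trans ?_
  rw [S.rg_Ioc_lf, ENNReal.ofReal_sum_of_nonneg, Finset.mul_sum]
  · refine Finset.sum_le_sum fun i hi => ?_
    rw [Finset.mem_Ico] at hi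
    exact S.rg_ofReal_charge_le hM hcb (Or.inr ⟨hm, by omega⟩) (by unfold lf; omega) x
  · intro i _
    split_ifs
    · exact (UI.dl u u' _).nonneg x
    · have := xx_nonneg (S.levOK hM hcb i) u u' x
      linarith

lemma rg_ofReal_rotB_le (hM : 0 ≤ S.M) (m j : ℕ) (x : E) :
    ENNReal.ofReal (rotB (S.lvs (j + 1) S.d) (S.rg_pay0 m) x)
      ≤ ENNReal.ofReal (S.M + 1) * ∑ i ∈ Finset.Ioc j S.lf, S.a i x * iw (S.X S.lf m) x := by
  have u := S.rg_pay0_UI m
  have hone : (1 : ℝ≥0∞) ≤ ENNReal.ofReal (S.M + 1) := by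
    rw [← ENNReal.ofReal_one]; exact ENNReal.ofReal_le_ofReal (by linarith)
  have e1 : 1 - S.rg_pay0 m x = ind (S.X S.lf m) x := one_sub_ind_compl _ x
  refine (ENNReal.ofReal_le_ofReal (rg_rotB_lvs_le hM u _ _ x)).trans ?_
  rw [S.rg_Ioc_lf, ENNReal.ofReal_sum_of_nonneg, Finset.mul_sum]
  · refine Finset.sum_le_sum fun i hi => ?_
    unfold a
    rw [e1]
    have hA := S.cp.A_pos i x
    by_cases hz : x ∈ S.cp.Z i
    · rw [if_pos hz, if_pos hz, one_mul, ofReal_ind]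
      exact le_mul_of_one_le_left' hone
    · rw [if_neg hz, if_neg hz, ENNReal.ofReal_mul (by positivity),
        ENNReal.ofReal_mul (by linarith), ofReal_ind, mul_assoc]
  · intro i _
    rw [e1]
    have := S.cp.A_pos i x
    have := ind_nonneg (S.X S.lf m) x
    split_ifs
    · exact this
    · positivity

/-! ### (R2) at inner rotations -/

lemma rg_jj_lt {m : ℕ} (hr : S.IsRot m) : S.el.jj m < S.lf := by
  have h := (S.rot_data hr).2.1
  have := S.d_eq
  omega

/-- the larger one of the two visible means at a label of level `jj m` -/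
noncomputable def rg_mx (m : ℕ) : E → ℝ :=
  mx (L S.f (S.el.jj m)) (S.lvs (S.el.jj m + 1) S.d) (S.rg_pay0 m) (S.rg_pay0 (m + 1))

lemma rg_mx_UI {c0 : ℝ} (hM : 0 ≤ S.M) (hcb : (S.M + 1) * S.cp.b0 ≤ c0) (hc : c0 ≤ 1 / 16)
    (m : ℕ) : UI (S.rg_mx m) := by
  have hG := S.good_lvs hM hcb (S.el.jj m + 1) S.d
  exact UI.gm (H654.UI.fr (H654.fl_UI hG hc (S.rg_pay0_UI m)) _)
    (H654.UI.fr (H654.fl_UI hG hc (S.rg_pay0_UI (m + 1))) _)

lemma rg_mx_le {c0 : ℝ} (hM : 0 ≤ S.M) (hcb : (S.M + 1) * S.cp.b0 ≤ c0) (hc : c0 ≤ 1 / 16)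
    {m : ℕ} (hr : S.IsRot m) (y : E) :
    ENNReal.ofReal (S.rg_mx m y) ≤ S.De (S.el.jj m) m y
      + fib (L S.f (S.el.jj m)) ((S.cp.Z S.lf).indicator 1) y := by
  have hj : S.el.jj m ≤ S.lf := (S.rg_jj_lt hr).le
  have hG := S.good_lvs hM hcb (S.el.jj m + 1) S.d
  have m2 : Measurable ((S.cp.Z S.lf).indicator (1 : E → ℝ≥0∞)) :=
    measurable_one.indicator (S.measurableSet_Z S.lf)
  have key : ∀ k, ENNReal.ofReal (fr (L S.f (S.el.jj m))
      (fl (S.lvs (S.el.jj m + 1) S.d) (S.rg_pay0 k)) y) ≤ S.De (S.el.jj m) k y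
      + fib (L S.f (S.el.jj m)) ((S.cp.Z S.lf).indicator 1) y := by
    intro k
    have hU := H654.fl_UI hG hc (S.rg_pay0_UI k)
    rw [H654.ofReal_fr (Bd.of_UI hU) hU.nonneg, S.De_eq k hj, ← H395.fib_add_right m2]
    refine H395.fib_mono (fun z => ?_) y
    have h2 := H654.fl_le_add_al hG hc (S.rg_pay0_UI k) z
    have h3 := S.al_lvs (a := S.el.jj m + 1) le_rfl z
    have h4 := (H654.al_UI hG).le_one z
    have h5 := (H654.al_UI hG).nonneg z
    have h6 := (S.rg_pay0_UI k).nonneg z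
    have h7 : fl (S.lvs (S.el.jj m + 1) S.d) (S.rg_pay0 k) z
        ≤ S.rg_pay0 k z + ind (S.cp.Z S.lf) z := by nlinarith
    refine (ENNReal.ofReal_le_ofReal h7).trans ?_
    rw [ENNReal.ofReal_add h6 (ind_nonneg _ _), ofReal_ind]
    unfold rg_pay0
    rw [ofReal_ind]
    rfl
  have e1 : S.De (S.el.jj m) (m + 1) y = S.De (S.el.jj m) m y := by
    unfold De
    rw [S.X_rot_le hr le_rfl]
  have h1 := key m
  have h2 := key (m + 1)
  rw [e1] at h2
  unfold rg_mx mx
  rcases le_total (fr (L S.f (S.el.jj m)) (fl (S.lvs (S.el.jj m + 1) S.d) (S.rg_pay0 m)) y)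
    (fr (L S.f (S.el.jj m)) (fl (S.lvs (S.el.jj m + 1) S.d) (S.rg_pay0 (m + 1))) y) with h | h
  · rw [max_eq_right h]; exact h2
  · rw [max_eq_left h]; exact h1

lemma rg_mem_inn {c0 : ℝ} (hM : 1 ≤ S.M) (hcb : (S.M + 1) * S.cp.b0 ≤ c0) (hc : c0 ≤ 1 / 16)
    (hk : S.cp.kap ≤ 1) {l m : ℕ} (hm : m < S.mT) (hr : S.IsRot m) {y : E}
    (hy : vis (S.lvs (l + 1) (S.el.jj m + 1)) (S.rg_mx m) y ≠ 0) :
    y ∈ S.inn l (S.el.jj m) m := by
  intro i h1 h2
  have hM0 : 0 ≤ S.M := by linarith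
  obtain ⟨hz, hle⟩ := S.De_of_vis_in hM0 hcb hc hk (S.rg_jj_lt hr).le (S.rg_mx_UI hM0 hcb hc m)
    (S.rg_mx_le hM0 hcb hc hr) hy i h1 h2
  obtain ⟨a1, a2⟩ := S.move_mem hm.le (Or.inr hr) i
  exact S.mem_om_of_De hM ⟨a1, a2.le⟩ hz hle

/-! ### measurability of the charges -/

lemma rg_meas_a (i : ℕ) : Measurable (S.a i) := by
  unfold a
  exact Measurable.ite (S.measurableSet_Z i) measurable_const
    (ENNReal.measurable_ofReal.comp (S.cp.A_meas i))

lemma rg_meas_Xr (i m : ℕ) : Measurable (S.Xr i m) := by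
  unfold Xr
  exact (S.rg_meas_a i).mul ((S.measurable_Dl i m).div (S.measurable_Dc i m))

lemma rg_fib_sum {W : Submodule ℝ E} {ι : Type*} (s : Finset ι) {f : ι → E → ℝ≥0∞}
    (hf : ∀ i, Measurable (f i)) (c : ℝ) (x : E) :
    ENNReal.ofReal c * ∑ i ∈ s, fib W (f i) x
      = fib W (fun y => ENNReal.ofReal c * ∑ i ∈ s, f i y) x := by
  unfold H395.fib
  rw [lintegral_const_mul' _ _ ENNReal.ofReal_ne_top, lintegral_finset_sum]
  intro i _
  exact (hf i).comp (H395.measurable_mix_right W x)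

/-- the price of an inner rotation at a label of level `l` -/
lemma rg_price {c0 : ℝ} (hM : 1 ≤ S.M) (hcb : (S.M + 1) * S.cp.b0 ≤ c0) (hc0 : c0 ≤ 1 / 16)
    (hk : S.cp.kap ≤ 1) (hR : 0 ≤ S.R) {c Cd : ℝ} (cs : ℝ) (hCd : 0 ≤ Cd)
    (hc1 : 144 * (S.M + 1) ≤ c) (hc2 : Cd * (20 * S.R + 16) * (S.M + 1) ≤ c)
    {l m : ℕ} (hm : m < S.mT) (hr : S.IsRot m) (hl : l ≤ S.el.jj m) (x : E) :
    ENNReal.ofReal (3 * fr (L S.f l) (fun y => vis (S.lvs (l + 1) (S.el.jj m + 1)) (S.rg_mx m) y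
        * rotA (S.lvs (S.el.jj m + 1) S.d) (S.rg_pay0 m) (S.rg_pay0 (m + 1)) y) x
      + Cd * (S.el.ph m * (20 * S.R + 16)
        * fr (L S.f l) (fun y => vis (S.lvs (l + 1) (S.el.jj m + 1)) (S.rg_mx m) y
          * rotB (S.lvs (S.el.jj m + 1) S.d) (S.rg_pay0 m) y) x)) ≤ S.Gp cs c l m x := by
  have hM0 : 0 ≤ S.M := by linarith
  have hph := (S.rot_angle hr).1
  have hG1 := S.good_lvs hM0 hcb (l + 1) (S.el.jj m + 1)
  have hG2 := S.good_lvs hM0 hcb (S.el.jj m + 1) S.d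
  have u := S.rg_pay0_UI m
  have u' := S.rg_pay0_UI (m + 1)
  have uV := H654.vis_UI hG1 hc0 (S.rg_mx_UI hM0 hcb hc0 m)
  set V := vis (S.lvs (l + 1) (S.el.jj m + 1)) (S.rg_mx m) with hV
  set A := rotA (S.lvs (S.el.jj m + 1) S.d) (S.rg_pay0 m) (S.rg_pay0 (m + 1)) with hA
  set B := rotB (S.lvs (S.el.jj m + 1) S.d) (S.rg_pay0 m) with hB
  have bA : Bd A := Bd.rotA hG2 u u'
  have bB : Bd B := Bd.rotB hG2 u
  have nA : ∀ y, 0 ≤ A y := rotA_nonneg hG2 u u'
  have nB : ∀ y, 0 ≤ B y := rotB_nonneg hG2 u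
  set K : ℝ := Cd * (S.el.ph m * (20 * S.R + 16)) with hK
  have hK0 : 0 ≤ K := by positivity
  have e : 3 * fr (L S.f l) (fun y => V y * A y) x + Cd * (S.el.ph m * (20 * S.R + 16)
      * fr (L S.f l) (fun y => V y * B y) x)
      = fr (L S.f l) (fun y => V y * (3 * A y + K * B y)) x := by
    have e1 : (fun y => V y * (3 * A y + K * B y))
        = fun y => 3 * (V y * A y) + K * (V y * B y) := by
      funext y; ring
    rw [e1, H654.fr_add (((Bd.of_UI uV).mul bA).const_mul _) (((Bd.of_UI uV).mul bB).const_mul _),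
      H654.fr_const_mul, H654.fr_const_mul, hK]
    ring
  rw [e, H654.ofReal_fr ((Bd.of_UI uV).mul ((bA.const_mul _).add (bB.const_mul _)))
    (fun y => mul_nonneg (uV.nonneg y)
      (add_nonneg (mul_nonneg (by norm_num) (nA y)) (mul_nonneg hK0 (nB y))))]
  unfold Gp
  rw [if_neg (hr.not_star S), if_neg (hr.not_re S), if_pos ⟨hr, hl⟩, rg_fib_sum]
  · refine H395.fib_mono (fun y => ?_) x
    by_cases hy : V y = 0
    · rw [hy, zero_mul, ENNReal.ofReal_zero]
      exact zero_le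
    · have hin := S.rg_mem_inn hM hcb hc0 hk hm hr hy
      have hi1 : iw (S.inn l (S.el.jj m) m) y = 1 := by
        unfold iw
        rw [indicator_of_mem hin]; rfl
      rw [hi1]
      simp only [one_mul]
      rw [Finset.sum_add_distrib, mul_add (ENNReal.ofReal c)]
      have h1 := S.rg_ofReal_rotA_le hM0 hcb hr y
      have h2 := S.rg_ofReal_rotB_le hM0 m (S.el.jj m) y
      calc ENNReal.ofReal (V y * (3 * A y + K * B y))
          ≤ ENNReal.ofReal (3 * A y + K * B y) := by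
            apply ENNReal.ofReal_le_ofReal
            exact mul_le_of_le_one_left
              (add_nonneg (mul_nonneg (by norm_num) (nA y)) (mul_nonneg hK0 (nB y)))
              (uV.le_one y)
        _ = ENNReal.ofReal 3 * ENNReal.ofReal (A y) + ENNReal.ofReal K * ENNReal.ofReal (B y) := by
            rw [ENNReal.ofReal_add (mul_nonneg (by norm_num) (nA y)) (mul_nonneg hK0 (nB y)),
              ENNReal.ofReal_mul (by norm_num), ENNReal.ofReal_mul hK0]
        _ ≤ ENNReal.ofReal 3 * (ENNReal.ofReal (48 * (S.M + 1))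
              * ∑ i ∈ Finset.Ioc (S.el.jj m) S.lf, S.Xr i m y)
            + ENNReal.ofReal K * (ENNReal.ofReal (S.M + 1)
              * ∑ i ∈ Finset.Ioc (S.el.jj m) S.lf, S.a i y * iw (S.X S.lf m) y) := by
            gcongr
        _ ≤ ENNReal.ofReal c * ∑ i ∈ Finset.Ioc (S.el.jj m) S.lf, S.Xr i m y
            + ENNReal.ofReal c * ∑ i ∈ Finset.Ioc (S.el.jj m) S.lf,
              ENNReal.ofReal (S.el.ph m) * S.a i y
                * (iw (S.X S.lf m) y + iw (S.X S.lf (m + 1)) y) := by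
            refine add_le_add ?_ ?_
            · rw [← mul_assoc, ← ENNReal.ofReal_mul (by norm_num)]
              refine mul_le_mul_left ?_ _
              apply ENNReal.ofReal_le_ofReal
              linarith
            · rw [← mul_assoc, ← ENNReal.ofReal_mul hK0]
              have e3 : K * (S.M + 1) = Cd * (20 * S.R + 16) * (S.M + 1) * S.el.ph m := by
                rw [hK]; ring
              rw [e3, ENNReal.ofReal_mul (by positivity), mul_assoc, Finset.mul_sum]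
              refine mul_le_mul (ENNReal.ofReal_le_ofReal hc2) ?_ zero_le zero_le
              refine Finset.sum_le_sum fun i _ => ?_
              rw [← mul_assoc]
              refine mul_le_mul_right ?_ _
              exact le_self_add
  · intro i
    refine (measurable_iw (S.measurableSet_inn _ _ _)).mul ((S.rg_meas_Xr i m).add ?_)
    refine (measurable_const.mul (S.rg_meas_a i)).mul ?_
    exact (measurable_iw (S.measurableSet_X _ _)).add (measurable_iw (S.measurableSet_X _ _))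

/-- **inner rotation**: the fields of level `l` before and after an inner rotation differ, along the
fibre over the label of `x`, by a soft perturbation whose price is at most `Gp`. -/
theorem rot_soft {c0 : ℝ} (hM : 1 ≤ S.M) (hcb : (S.M + 1) * S.cp.b0 ≤ c0) (hc0 : c0 ≤ 1 / 16)
    (hsg : sg c0 ^ S.d ≤ 2) (hk : S.cp.kap ≤ 1 / 2) (hR : 0 ≤ S.R) {c Cd : ℝ} (cs : ℝ)
    (hCd : 0 ≤ Cd) (hc1 : 144 * (S.M + 1) ≤ c) (hc2 : Cd * (20 * S.R + 16) * (S.M + 1) ≤ c)
    {l m : ℕ} (hm : m < S.mT) (hr : S.IsRot m) (hl : l ≤ S.el.jj m) (x : E) :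
    ∃ a b : ℝ, 0 ≤ a ∧ 0 ≤ b ∧
      H174.Soft (fun z : (L S.f l)ᗮ => S.fldL l m (H852.sl (L S.f l) x z))
        (fun z : (L S.f l)ᗮ => S.fldL l (m + 1) (H852.sl (L S.f l) x z)) a b ∧
      ENNReal.ofReal (a + Cd * b) ≤ S.Gp cs c l m x := by
  have hM0 : 0 ≤ S.M := by linarith
  have hk1 : S.cp.kap ≤ 1 := by linarith
  have hb0 := S.cp.b0_pos
  have hc00 : 0 ≤ c0 := le_trans (by positivity) hcb
  have hd := S.d_eq
  have hjl := S.rg_jj_lt hr
  have hph := (S.rot_angle hr).1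
  obtain ⟨b, hb, hbL, hU, hX⟩ := S.X_rot_gt hr hjl
  have hG1 := S.good_lvs hM0 hcb (l + 1) (S.el.jj m + 1)
  have hG2 := S.good_lvs hM0 hcb (S.el.jj m + 1) S.d
  have u := S.rg_pay0_UI m
  have u' := S.rg_pay0_UI (m + 1)
  have hsg1 : 1 ≤ sg c0 := H654.one_le_sg hc00 hc0
  have hs1 : sg c0 ^ (S.lvs (l + 1) (S.el.jj m + 1)).length ≤ 2 := by
    rw [S.length_lvs]
    exact (pow_le_pow_right₀ hsg1 (by omega)).trans hsg
  have hs2 : sg c0 ^ (S.lvs (S.el.jj m + 1) S.d).length ≤ 2 := by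
    rw [S.length_lvs]
    exact (pow_le_pow_right₀ hsg1 (by omega)).trans hsg
  have hH := fun g (hg : UI g) => S.rg_hidOK_lvs hM0 hcb hc0 hk hg (S.el.jj m + 1) S.d le_rfl
  have hfix : ∀ w ∈ L S.f (S.el.jj m), (rotE hb (S.el.ph m)).symm w = w := by
    intro w hw
    rw [H118.rotE_symm_apply]
    refine H118.rotL_of_perp _ ?_ ?_
    · exact (Submodule.mem_orthogonal' _ _).1 (S.hf.mem_perp (by omega)) w hw
    · exact (Submodule.mem_orthogonal' _ _).1 hbL w (L_mono S.f (Nat.le_succ (S.el.jj m)) hw)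
  have hgg : ∀ y, S.rg_pay0 (m + 1) ((rotE hb (S.el.ph m)).symm y) = S.rg_pay0 m y := by
    intro y
    have h0 : (rotE hb (S.el.ph m)) ((rotE hb (S.el.ph m)).symm y) = y :=
      LinearIsometryEquiv.apply_symm_apply _ _
    have h1 : (rotE hb (S.el.ph m)).symm y ∈ S.X S.lf (m + 1) ↔ y ∈ S.X S.lf m := by
      rw [hX, mem_preimage, h0]
    unfold rg_pay0 ind
    by_cases h : y ∈ S.X S.lf m
    · rw [indicator_of_notMem (not_not.mpr (h1.mpr h)), indicator_of_notMem (not_not.mpr h)]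
    · rw [indicator_of_mem (show (rotE hb (S.el.ph m)).symm y ∈ (S.X S.lf (m + 1))ᶜ from
        fun h' => h (h1.mp h')), indicator_of_mem (show y ∈ (S.X S.lf m)ᶜ from h)]
  have h1 := soft_slice (W := L S.f l) (W' := L S.f (S.el.jj m)) (L1 := S.lvs (l + 1) (S.el.jj m + 1))
    (L2 := S.lvs (S.el.jj m + 1) S.d) (g := S.rg_pay0 m) (g' := S.rg_pay0 (m + 1))
    (R := (rotE hb (S.el.ph m)).symm) (r := S.R) (τ := S.el.ph m) (e1 := S.f (S.el.jj m)) (e2 := b)
    (C := S.Cg l m) hG1 hG2 hc00 hc0 hs1 hs2 u u' (hH _ u) (hH _ u') (hH _ (UI.gm u u'))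
    (fun p hp => by
      obtain ⟨i, h1, h2, rfl⟩ := S.mem_lvs.mp hp
      exact L_mono S.f (by omega))
    (fun p hp => by
      obtain ⟨i, h1, h2, rfl⟩ := S.mem_lvs.mp hp
      exact L_mono S.f (by omega))
    (L_mono S.f hl)
    (fun p hp => by
      obtain ⟨i, h1, h2, rfl⟩ := S.mem_lvs.mp hp
      exact L_mono S.f (by omega))
    hfix hgg hR hph
    (fun p hp y hy => by
      obtain ⟨i, h1, h2, rfl⟩ := S.mem_lvs.mp hp
      exact S.rg_alive_norm h2 hy)
    (fun p hp y hy => by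
      obtain ⟨i, h1, h2, rfl⟩ := S.mem_lvs.mp hp
      have h3 := S.rg_exp_le_A hk1 h2 hy
      have h4 := S.cp.A_pos i y
      show Real.exp (-S.R ^ 2) ≤ (S.M + 1) * S.cp.A i y
      have h5 : Real.exp (-S.R ^ 2) ≤ Real.exp (-S.R ^ 2 / 8) := by
        apply Real.exp_le_exp.mpr
        nlinarith [sq_nonneg S.R]
      nlinarith)
    hb.hp.le hb.hq.le
    (fun y => by
      have h3 := H174.rotL_disp hb (S.el.ph m) y
      rw [abs_of_nonneg hph] at h3
      exact h3)
    (fun y hy => by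
      have h3 : y ∈ S.X S.lf m := by
        by_contra h4
        exact hy (ind_mem h4)
      have h5 := S.X_subset_ball S.lf m h3
      simpa using h5)
    (S.fixes_Cg (by omega) m) x
  refine ⟨3 * fr (L S.f l) (fun y => vis (S.lvs (l + 1) (S.el.jj m + 1)) (S.rg_mx m) y
        * rotA (S.lvs (S.el.jj m + 1) S.d) (S.rg_pay0 m) (S.rg_pay0 (m + 1)) y) x,
    S.el.ph m * (20 * S.R + 16)
        * fr (L S.f l) (fun y => vis (S.lvs (l + 1) (S.el.jj m + 1)) (S.rg_mx m) y
          * rotB (S.lvs (S.el.jj m + 1) S.d) (S.rg_pay0 m) y) x, ?_, ?_, ?_, ?_⟩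
  rotate_left 2
  · have e1 : (fun z : (L S.f l)ᗮ => S.fldL l m (H852.sl (L S.f l) x z))
        = fun z : (L S.f l)ᗮ => fl (S.lvs (l + 1) (S.el.jj m + 1) ++ S.lvs (S.el.jj m + 1) S.d) (S.rg_pay0 m)
          ((S.Cg l m).symm (H852.sl (L S.f l) x z)) := by
      funext z
      unfold fldL fld
      rw [S.lvs_append (show l + 1 ≤ S.el.jj m + 1 by omega) (show S.el.jj m + 1 ≤ S.d by omega)]
      rfl
    have e2 : (fun z : (L S.f l)ᗮ => S.fldL l (m + 1) (H852.sl (L S.f l) x z))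
        = fun z : (L S.f l)ᗮ => fl (S.lvs (l + 1) (S.el.jj m + 1) ++ S.lvs (S.el.jj m + 1) S.d)
          (S.rg_pay0 (m + 1)) ((rotE hb (S.el.ph m)).symm
            ((S.Cg l m).symm (H852.sl (L S.f l) x z))) := by
      funext z
      have e3 : ∀ w, (S.Cg l (m + 1)).symm w
          = (rotE hb (S.el.ph m)).symm ((S.Cg l m).symm w) := by
        intro w
        unfold Cg
        rw [hU, S.U_rot_le hr hl]
        rfl
      unfold fldL fld
      rw [e3, S.lvs_append (show l + 1 ≤ S.el.jj m + 1 by omega) (show S.el.jj m + 1 ≤ S.d by omega)]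
      rfl
    rw [e1, e2]
    exact h1
  · exact S.rg_price hM hcb hc0 hk1 hR cs hCd hc1 hc2 hm hr hl x
  · refine mul_nonneg (by norm_num) (H654.fr_nonneg (fun y => mul_nonneg ?_ ?_) x)
    · exact (H654.vis_UI hG1 hc0 (S.rg_mx_UI hM0 hcb hc0 m)).nonneg y
    · exact rotA_nonneg hG2 u u' y
  · refine mul_nonneg (by positivity) (H654.fr_nonneg (fun y => mul_nonneg ?_ ?_) x)
    · exact (H654.vis_UI hG1 hc0 (S.rg_mx_UI hM0 hcb hc0 m)).nonneg y
    · exact rotB_nonneg hG2 u y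

end Vale.Agent.P262.M1.Sys
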