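import Vale.Agent.P262.H654.CapS
import Vale.Agent.P262.H174.Soft6
import Vale.Agent.P262.M2.Price
import Vale.Agent.P262.M2.SumRot2

/-!
# P262, milestone 2: the moment of the hidden part of a rotating node, parent of class `≥ 1`

`fup q m` (M2/Price): the field at the node `q` (own truncation and kills included), coordinates of
`q`; `rho m`: the isometry of the rotation in the coordinates of the rotating node `jj m`;
`Hd m y = |pf - fup| * ‖rho y - y‖` at the rotating node.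
-/

set_option linter.all false

open MeasureTheory ProbabilityTheory Set
open scoped ENNReal RealInnerProductSpace
open Vale.Agent.P262.H118 (ON rotE rotL rotE_apply)
open Vale.Agent.P262.H395 (fib mix Inv Fixes measurable_fib fib_tower fib_mono fib_fixes)
open Vale.Agent.P262.H847 (UI)
open Vale.Agent.P262.H941 (LL LL_nonneg LL_mono LL_mul_le LL_le_sqrt one_le_ell)
open Vale.Agent.P262.H713 (Pa FT fr_congr fr_fix)
open Vale.Agent.P262.H654 (tr phi Bd InvR fr invR_fr ofReal_fr)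

namespace Vale.Agent.P262.M2.Sys

variable {E : Type*} [NormedAddCommGroup E] [InnerProductSpace ℝ E] [FiniteDimensional ℝ E]
  [MeasurableSpace E] [BorelSpace E]

variable {S : Sys E} {m : ℕ}

lemma pf_symm_h (c : ℕ) (p : List ℕ) (m : ℕ) (x : E) :
    S.pf (c :: p) m ((S.mv.Q m (c :: p)).symm x) = S.pf p m x := by
  rw [S.pf_cons, LinearIsometryEquiv.apply_symm_apply]

/-- mean distance to the payoff at a label of the parent, in the coordinates of the child -/
lemma fr_abs_fup (hm : m ≤ S.mT) {p : List ℕ} (hl : ¬ S.Leaf p m) (x : E) :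
    fr (S.W p m) (fun y => |S.pf (S.kl p m x :: p) m y - S.fup (S.kl p m x :: p) m y|) x
      = fr (S.W p m) (fun y => |S.pf p m y - S.fld p m y|) x := by
  set q := S.kl p m x :: p with hq
  have e1 : fr (S.W p m) (fun y => |S.pf p m y - S.fld p m y|) x
      = fr (S.W p m) (fun y => (fun z => |S.pf q m z - S.fup q m z|)
          ((S.mv.Q m q).symm y)) x := by
    refine fr_congr fun y hy => ?_
    have hk : S.kl p m y = S.kl p m x := (S.labOK hm).kl_eq hy
    rw [fld_eq_fup hm hl, hk, ← hq]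
    simp only
    rw [hq, pf_symm_h]
  rw [e1]
  exact (fr_fix (R := (S.mv.Q m q).symm) (S.Q_fix _ p m).symm _ x).symm

/-! ### moments in a fibre -/

lemma inner_mix_perp_h {W : Submodule ℝ E} {e : E} (he : e ∈ Wᗮ) (x z : E) :
    ⟪e, mix W x z⟫ = ⟪e, z⟫ := by
  unfold H395.mix
  have h1 : ⟪e, W.starProjection x⟫ = 0 := (Submodule.mem_orthogonal' _ _).1 he _
    (Submodule.starProjection_apply_mem _ _)
  have h2 : ⟪e, W.starProjection z⟫ = 0 := (Submodule.mem_orthogonal' _ _).1 he _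
    (Submodule.starProjection_apply_mem _ _)
  rw [inner_add_right, inner_sub_right, h1, h2]
  ring

/-- **moment of a small function over a label**, directions orthogonal to the label space -/
lemma fib_mom_le_h {W : Submodule ℝ E} {u : E → ℝ} (hu : UI u) {a b : E} (ha : ‖a‖ = 1)
    (hb : ‖b‖ = 1) (haW : a ∈ Wᗮ) (hbW : b ∈ Wᗮ) (x : E) :
    fib W (fun y => ENNReal.ofReal (u y * (|⟪a, y⟫| + |⟪b, y⟫|))) x
      ≤ ENNReal.ofReal (8 * LL (fr W u x)) := by
  have hv : UI fun z => u (mix W x z) :=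
    ⟨hu.meas.comp (H395.measurable_mix_right W x), fun z => hu.nonneg _, fun z => hu.le_one _⟩
  set v : E → ℝ := fun z => u (mix W x z) with hvdef
  have i1 := H174.UI.int_abs_inner hv a
  have i2 := H174.UI.int_abs_inner hv b
  have e1 : fib W (fun y => ENNReal.ofReal (u y * (|⟪a, y⟫| + |⟪b, y⟫|))) x
      = ∫⁻ z, ENNReal.ofReal (v z * |⟪a, z⟫| + v z * |⟪b, z⟫|) ∂stdGaussian E := by
    unfold H395.fib
    refine lintegral_congr fun z => ?_
    simp only
    rw [inner_mix_perp_h haW, inner_mix_perp_h hbW, mul_add]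
  have i3 : Integrable (fun z => v z * |⟪a, z⟫| + v z * |⟪b, z⟫|) (stdGaussian E) := i1.add i2
  rw [e1, ← ofReal_integral_eq_lintegral_ofReal i3 (Filter.Eventually.of_forall fun z =>
    add_nonneg (mul_nonneg (hv.nonneg z) (abs_nonneg _)) (mul_nonneg (hv.nonneg z)
      (abs_nonneg _)))]
  apply ENNReal.ofReal_le_ofReal
  rw [integral_add i1 i2]
  have h1 := H174.int_abs_inner_le hv ha
  have h2 := H174.int_abs_inner_le hv hb
  have h3 : ∫ z, v z ∂stdGaussian E = fr W u x := rfl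
  rw [h3] at h1 h2
  linarith

/-! ### the rotation -/

lemma rho_disp (h : S.mv.IsRot m) : ∃ a b : E, ‖a‖ = 1 ∧ ‖b‖ = 1 ∧
    a ∈ (S.W (S.mv.jj m).tail m)ᗮ ∧ b ∈ (S.W (S.mv.jj m) m)ᗮ ∧
    ∀ y, ‖S.rho m y - y‖ ≤ S.mv.ph m * (|⟪a, y⟫| + |⟪b, y⟫|) := by
  obtain ⟨θ, b, hb, h1, h2, h3, h4⟩ := rho_eq h
  refine ⟨θ, b, hb.hp, hb.hq, h2, h3, fun y => ?_⟩
  have e : S.rho m y = rotL θ b (S.mv.ph m) y := by
    rw [h4]
    exact rotE_apply hb _ y
  rw [e]
  have := H174.rotL_disp hb (S.mv.ph m) y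
  rwa [abs_of_nonneg (S.mv.ph_nonneg m)] at this

/-- **the moment at a label of the parent** -/
theorem fib_Hd_le (hm : m < S.mT) (h : S.mv.IsRot m) {c : ℕ} {p : List ℕ}
    (hj : S.mv.jj m = c :: p) {x : E} (hx : S.kl p m x = c) :
    fib (S.W p m) (S.Hd m) x
      ≤ ENNReal.ofReal (S.mv.ph m *
        (8 * LL (fr (S.W p m) (fun y => |S.pf p m y - S.fld p m y|) x))) := by
  have hl := not_leaf_of_rot hm h hj
  obtain ⟨a, b, ha, hb, haW, hbW, hd⟩ := rho_disp h
  rw [hj] at haW hbW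
  rw [List.tail_cons] at haW
  have hbW' : b ∈ (S.W p m)ᗮ := Submodule.orthogonal_le (S.W_le c p m) hbW
  have hU : UI fun y => |S.pf (c :: p) m y - S.fup (c :: p) m y| := by
    have h1 := S.pf_UI (c :: p) m
    have h2 := (S.labOK hm.le).fup_UI (c :: p)
    refine ⟨(h1.meas.sub h2.meas).abs, fun y => abs_nonneg _, fun y => ?_⟩
    rw [abs_le]
    have := h1.nonneg y; have := h1.le_one y; have := h2.nonneg y; have := h2.le_one y
    constructor <;> linarith
  rw [← fr_abs_fup hm.le hl, hx, ENNReal.ofReal_mul (S.mv.ph_nonneg m)]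
  refine le_trans ?_ (mul_le_mul' le_rfl (fib_mom_le_h hU ha hb haW hbW' x))
  have hmeas : Measurable fun y : E => ENNReal.ofReal
      (|S.pf (c :: p) m y - S.fup (c :: p) m y| * (|⟪a, y⟫| + |⟪b, y⟫|)) := by
    have h1 : Measurable fun y : E => |⟪a, y⟫| + |⟪b, y⟫| := by fun_prop
    exact (hU.meas.mul h1).ennreal_ofReal
  rw [← H395.fib_mul (H395.inv_const (S.W p m) (ENNReal.ofReal (S.mv.ph m))) hmeas]
  refine fib_mono (fun y => ?_) x
  unfold Hd
  rw [hj, ← ENNReal.ofReal_mul (S.mv.ph_nonneg m), ← ENNReal.ofReal_mul (abs_nonneg _)]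
  apply ENNReal.ofReal_le_ofReal
  calc |S.pf (c :: p) m y - S.fup (c :: p) m y| * ‖S.rho m y - y‖
      ≤ |S.pf (c :: p) m y - S.fup (c :: p) m y| * (S.mv.ph m * (|⟪a, y⟫| + |⟪b, y⟫|)) :=
        mul_le_mul_of_nonneg_left (hd y) (abs_nonneg _)
    _ = _ := by ring

/-! ### scalars -/

omit [NormedAddCommGroup E] [InnerProductSpace ℝ E] [FiniteDimensional ℝ E] [MeasurableSpace E]
  [BorelSpace E] in
lemma mul_one_sub_log_mono_h {a D : ℝ} (ha : 0 < a) (haD : a ≤ D) (hD : D ≤ 1) :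
    a * (1 - Real.log a) ≤ D * (1 - Real.log D) := by
  have hD0 : 0 < D := ha.trans_le haD
  have h1 : a * (Real.log D - Real.log a) ≤ D - a := by
    have h2 := Real.log_le_sub_one_of_pos (div_pos hD0 ha)
    rw [Real.log_div hD0.ne' ha.ne'] at h2
    calc a * (Real.log D - Real.log a) ≤ a * (D / a - 1) := mul_le_mul_of_nonneg_left h2 ha.le
      _ = D - a := by field_simp
  have h3 : Real.log D ≤ 0 := Real.log_nonpos hD0.le hD
  nlinarith

omit [NormedAddCommGroup E] [InnerProductSpace ℝ E] [FiniteDimensional ℝ E] [MeasurableSpace E]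
  [BorelSpace E] in
lemma LL_le_rpow_h {a D th : ℝ} (ha : 0 < a) (haD : a ≤ D) (hD : D ≤ 1) (hth : th ≤ 1 / 2) :
    LL a ≤ a ^ th * (D ^ (1 - th) * Real.sqrt (1 - Real.log D)) := by
  have hD0 : 0 < D := ha.trans_le haD
  have h1 : Real.sqrt (a * (1 - Real.log a)) ≤ Real.sqrt (D * (1 - Real.log D)) :=
    Real.sqrt_le_sqrt (mul_one_sub_log_mono_h ha haD hD)
  rw [Real.sqrt_mul ha.le, Real.sqrt_mul hD0.le] at h1
  have h2 : a ^ (1 / 2 - th) ≤ D ^ (1 / 2 - th) :=
    Real.rpow_le_rpow ha.le haD (by linarith)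
  have e1 : a = a ^ th * (a ^ (1 / 2 - th) * Real.sqrt a) := by
    rw [Real.sqrt_eq_rpow, ← Real.rpow_add ha, ← Real.rpow_add ha,
      show th + (1 / 2 - th + 1 / 2) = 1 by ring, Real.rpow_one]
  have e2 : D ^ (1 - th) = D ^ (1 / 2 - th) * Real.sqrt D := by
    rw [Real.sqrt_eq_rpow, ← Real.rpow_add hD0]
    congr 1
    ring
  have e3 : LL a = a ^ th * (a ^ (1 / 2 - th) * (Real.sqrt a * Real.sqrt (1 - Real.log a))) := by
    unfold H941.LL
    conv_lhs => rw [show a * Real.sqrt (1 - Real.log a)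
      = (a ^ th * (a ^ (1 / 2 - th) * Real.sqrt a)) * Real.sqrt (1 - Real.log a) by rw [← e1]]
    ring
  rw [e3, e2, mul_assoc (D ^ (1 / 2 - th))]
  have h3 : 0 ≤ a ^ th := Real.rpow_nonneg ha.le _
  have h4 : 0 ≤ D ^ (1 / 2 - th) := Real.rpow_nonneg hD0.le _
  exact mul_le_mul_of_nonneg_left (mul_le_mul h2 h1 (by positivity) h4) h3

omit [NormedAddCommGroup E] [InnerProductSpace ℝ E] [FiniteDimensional ℝ E] [MeasurableSpace E]
  [BorelSpace E] in
lemma LL_scal_h {κ a b0 D th : ℝ} (hκ : 0 < κ) (hκ1 : 8 * κ ≤ 1) (ha : 0 < a) (hab : a ≤ b0)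
    (hb1 : b0 ≤ 1) (haD : a ≤ D) (hD : D ≤ 1) (hth : th ≤ 1 / 2) :
    LL (8 * κ * (a / b0)) ≤ 3 * Real.sqrt κ / b0 *
      (a ^ th * (D ^ (1 - th) * Real.sqrt (1 - Real.log D))) := by
  have hb0 : 0 < b0 := ha.trans_le hab
  have h1 := LL_mul_le (θ := 8 * κ) (x := a / b0) (by positivity) hκ1 (by positivity)
    (by rw [div_le_one hb0]; exact hab)
  have h2 : LL (8 * κ) ≤ 3 * Real.sqrt κ := by
    refine (LL_le_sqrt (by positivity)).trans ?_
    rw [Real.sqrt_mul (by norm_num)]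
    refine mul_le_mul_of_nonneg_right ?_ (Real.sqrt_nonneg _)
    rw [Real.sqrt_le_left (by norm_num)]
    norm_num
  have h3 : LL (a / b0) ≤ LL a / b0 := by
    unfold H941.LL
    rw [div_mul_eq_mul_div]
    refine div_le_div_of_nonneg_right ?_ hb0.le
    refine mul_le_mul_of_nonneg_left (Real.sqrt_le_sqrt ?_) ha.le
    rw [Real.log_div ha.ne' hb0.ne']
    have := Real.log_nonpos hb0.le hb1
    linarith
  have h4 := LL_le_rpow_h ha haD hD hth
  have h5 : LL (a / b0) ≤ (a ^ th * (D ^ (1 - th) * Real.sqrt (1 - Real.log D))) / b0 :=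
    h3.trans (div_le_div_of_nonneg_right h4 hb0.le)
  have h6 : 0 ≤ LL (a / b0) := LL_nonneg (by positivity)
  calc LL (8 * κ * (a / b0)) ≤ LL (8 * κ) * LL (a / b0) := h1
    _ ≤ 3 * Real.sqrt κ * ((a ^ th * (D ^ (1 - th) * Real.sqrt (1 - Real.log D))) / b0) :=
        mul_le_mul h2 h5 h6 (by positivity)
    _ = _ := by ring

/-! ### labelwise bound -/

section label

variable (hε : 2 * (Real.sqrt 2 * Real.exp (-(S.qq / 4))) ≤ 1 / 2) (hk : S.kp 1 ≤ 1 / 2)
  (hkap : S.kap ≤ 1 / 8) (hth : S.th ≤ 1 / 2)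
include hε hk hkap hth

/-- **the moment at a counted label of class `≥ 1`** -/
theorem fib_Hd_le' (hm : m < S.mT) (h : S.mv.IsRot m) {c : ℕ} {p : List ℕ}
    (hj : S.mv.jj m = c :: p) (hc : c ≠ 0) {x : E} (hx : S.kl p m x = c) (hom : x ∈ S.om p m) :
    fib (S.W p m) (S.Hd m) x ≤ ENNReal.ofReal (24 / S.b0 * S.mv.ph m * Real.sqrt S.kap ^ S.kr m) *
      (S.As S.th p m x * S.psi p m x * S.sl p m x) := by
  have ht := S.tm_lt_f hm.le
  have hl := not_leaf_of_rot hm h hj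
  have hZ : x ∉ S.Z p m := hom.1
  have hkr : S.kr m = S.kdm (c :: p) m := by unfold kr kdm; rw [hj]
  have hk1 : 1 ≤ S.kdm (c :: p) m := one_le_kdm c ht hl
  have hkap0 := S.hkap
  have hM := S.hM
  have hb0 := S.b0_pos_f
  set a : ℝ := (S.A p m x).toReal with ha
  set D : ℝ := (S.Db p m x).toReal with hD
  have ha0 : 0 < a := ENNReal.toReal_pos (S.A_pos p m x).ne' (S.A_ne_top p m x)
  have hab : a ≤ S.b0 := S.toReal_A_le_f hZ
  have hD1' : S.Db p m x ≤ 1 := Dw_le_one _ _ _ _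
  have hDt : S.Db p m x ≠ ⊤ := (hD1'.trans_lt ENNReal.one_lt_top).ne
  have haD : a ≤ D := ENNReal.toReal_mono hDt (A_le_Db_of_om ht hom)
  have hD1 : D ≤ 1 := by
    have := ENNReal.toReal_mono ENNReal.one_ne_top hD1'
    simpa using this
  have hb1 : S.b0 ≤ 1 := by
    have := S.hMb
    nlinarith
  have hcf : 4 * S.kp (S.kdm (c :: p) m) * S.cf m p x
      = 8 * S.kap ^ S.kdm (c :: p) m * (a / S.b0) := by
    unfold kp cf cc
    rw [← ha]
    have : S.M + 1 ≠ 0 := by linarith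
    field_simp
    ring
  have hκ : 0 < S.kap ^ S.kdm (c :: p) m := by positivity
  have hκ1 : 8 * S.kap ^ S.kdm (c :: p) m ≤ 1 := by
    have : S.kap ^ S.kdm (c :: p) m ≤ S.kap ^ 1 := pow_le_pow_of_le_one hkap0.le S.hkap1 hk1
    rw [pow_one] at this
    linarith
  have h1 := fr_close hε hk hm.le hZ
  rw [hx, hcf] at h1
  have h0 : 0 ≤ fr (S.W p m) (fun y => |S.pf p m y - S.fld p m y|) x :=
    H654.fr_nonneg (fun y => abs_nonneg _) x
  have h2 : LL (fr (S.W p m) (fun y => |S.pf p m y - S.fld p m y|) x)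
      ≤ LL (8 * S.kap ^ S.kdm (c :: p) m * (a / S.b0)) := by
    refine LL_mono h0 h1 ?_
    have : a / S.b0 ≤ 1 := by rw [div_le_one hb0]; exact hab
    have h3 : 0 ≤ a / S.b0 := by positivity
    exact mul_le_one₀ hκ1 h3 this
  have h3 := LL_scal_h hκ hκ1 ha0 hab hb1 haD hD1 hth
  refine (fib_Hd_le hm h hj hx).trans ?_
  have hAs : S.As S.th p m x = ENNReal.ofReal (a ^ S.th) := by
    rw [← S.A_rpow S.hth.le, ← ENNReal.ofReal_rpow_of_pos ha0,
      ENNReal.ofReal_toReal (S.A_ne_top p m x)]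
  have hpsi : S.psi p m x = ENNReal.ofReal (D ^ (1 - S.th)) := by
    unfold psi
    rw [if_neg (by rw [hx]; exact hc), ← ENNReal.ofReal_rpow_of_pos (ha0.trans_le haD),
      ENNReal.ofReal_toReal hDt]
  have hsl : S.sl p m x = ENNReal.ofReal (Real.sqrt (1 - Real.log D)) := by
    unfold sl
    rw [if_neg (by rw [hx]; exact hc)]
  have hph := S.mv.ph_nonneg m
  rw [hAs, hpsi, hsl, ← ENNReal.ofReal_mul (by positivity), ← ENNReal.ofReal_mul (by positivity),
    ← ENNReal.ofReal_mul (by positivity)]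
  apply ENNReal.ofReal_le_ofReal
  have h4 : Real.sqrt (S.kap ^ S.kdm (c :: p) m) = Real.sqrt S.kap ^ S.kr m := by
    rw [hkr, Real.sqrt_eq_rpow, Real.sqrt_eq_rpow, ← Real.rpow_natCast, ← Real.rpow_natCast,
      ← Real.rpow_mul hkap0.le, ← Real.rpow_mul hkap0.le, mul_comm]
  rw [h4] at h3
  calc S.mv.ph m * (8 * LL (fr (S.W p m) (fun y => |S.pf p m y - S.fld p m y|) x))
      ≤ S.mv.ph m * (8 * (3 * Real.sqrt S.kap ^ S.kr m / S.b0 *
        (a ^ S.th * (D ^ (1 - S.th) * Real.sqrt (1 - Real.log D))))) := by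
        gcongr
        exact h2.trans h3
    _ = _ := by ring

end label

/-! ### regions at a level -/

/-- the labels of level `j` of the node `r`, through the rotating node, counted up to level `j` -/
def rgn (S : Sys E) (m j : ℕ) (r : List ℕ) : Set E :=
  {y | S.nd m y j = r} ∩ (S.thru (j + 1) m ∩ S.OL (j + 1) m)

lemma rgn_add (hm : S.mv.tm m < S.T) (j : ℕ) (r : List ℕ) {x w : E} (hw : w ∈ (S.W r m)ᗮ)
    (hx : x ∈ S.rgn m j r) : x + w ∈ S.rgn m j r := by
  obtain ⟨h1, h2, h3⟩ := hx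
  simp only [mem_setOf_eq] at h1
  have hw' : w ∈ (S.W (S.nd m x j) m)ᗮ := by rw [h1]; exact hw
  have h4 := nd_inv hm x j hw'
  refine ⟨?_, ?_, ?_⟩
  · simp only [mem_setOf_eq]
    rw [h4 j (by omega), h1]
  · show S.nd m (x + w) (j + 1) = S.mv.jj m
    rw [h4 (j + 1) le_rfl]
    exact h2
  · intro i hi
    rw [h4 i (by omega)]
    refine (om_inv (S.nd m x i) hm x w ?_).2 (h3 i hi)
    exact Submodule.orthogonal_le (S.W_mono (nd_suffix_nd m x (by omega)) m) hw'

lemma rgn_iff (hm : S.mv.tm m < S.T) (j : ℕ) (r : List ℕ) (x w : E) (hw : w ∈ (S.W r m)ᗮ) :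
    x + w ∈ S.rgn m j r ↔ x ∈ S.rgn m j r := by
  constructor
  · intro h
    have h1 := rgn_add hm j r (Submodule.neg_mem _ hw) h
    simpa using h1
  · exact rgn_add hm j r hw

lemma measurableSet_nd_eq_h (m j : ℕ) (r : List ℕ) : MeasurableSet {y : E | S.nd m y j = r} := by
  classical
  have h := measurableSet_nd (S := S) m j (s := fun r' => if r' = r then univ else ∅)
    (fun r' => by
      split_ifs
      · exact MeasurableSet.univ
      · exact MeasurableSet.empty)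
  have e : {y : E | S.nd m y j = r}
      = {x | x ∈ (fun r' => if r' = r then (univ : Set E) else ∅) (S.nd m x j)} := by
    ext x
    simp only [mem_setOf_eq]
    split_ifs with h <;> simp [h]
  rw [e]
  exact h

lemma measurableSet_rgn (m j : ℕ) (r : List ℕ) : MeasurableSet (S.rgn m j r) :=
  (measurableSet_nd_eq_h m j r).inter ((measurableSet_nd_eq_h m (j + 1) (S.mv.jj m)).inter
    (measurableSet_OL (j + 1) m))

/-- **integrals over the labels of the parent of the rotating node** -/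
theorem Hw_eq (hm : m < S.mT) (j : ℕ) {H : ℕ → E → ℝ≥0∞} (hH : Measurable (H m)) :
    S.Hw H (j + 1) m = ∫⁻ x, iw (S.thru (j + 1) m ∩ S.OL (j + 1) m) x *
      fib (S.W (S.nd m x j) m) (H m) x ∂stdGaussian E := by
  have hg : ∀ x, (S.rgn m j (S.nd m x j)).indicator (1 : E → ℝ≥0∞) x
      = iw (S.thru (j + 1) m ∩ S.OL (j + 1) m) x := by
    intro x
    unfold iw
    by_cases hx : x ∈ S.thru (j + 1) m ∩ S.OL (j + 1) m
    · rw [indicator_of_mem hx, indicator_of_mem (show x ∈ S.rgn m j (S.nd m x j) from ⟨rfl, hx⟩)]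
    · rw [indicator_of_notMem hx, indicator_of_notMem (fun h => hx h.2)]
  have h := int_mul_fib (S := S) (S.tm_lt_f hm.le) j
    (g := fun r => (S.rgn m j r).indicator (1 : E → ℝ≥0∞)) (F := fun _ => H m)
    (fun r x w hw => by
      by_cases hx : x ∈ S.rgn m j r
      · rw [indicator_of_mem hx, indicator_of_mem ((rgn_iff (S.tm_lt_f hm.le) j r x w hw).2 hx)]
        rfl
      · rw [indicator_of_notMem hx, indicator_of_notMem (fun h' =>
          hx ((rgn_iff (S.tm_lt_f hm.le) j r x w hw).1 h'))])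
    (fun r => measurable_one.indicator (measurableSet_rgn m j r)) (fun _ => hH)
  simp only [hg] at h
  exact h.symm

/-! ### the block -/

/-- (HMOM), parent of class `≥ 1` -/
def HMOMp (S : Sys E) (H : ℕ → E → ℝ≥0∞) (CT lam : ℝ) : Prop := ∀ m < S.mT, S.mv.IsRot m →
  ∀ c p, S.mv.jj m = c :: p → c ≠ 0 →
    S.Hw H (p.length + 1) m ≤ ENNReal.ofReal (CT * S.mv.ph m * lam ^ S.kr m) * S.Rw p.length m

/-- (HMOM), parent of class `0` -/
def HMOM0 (S : Sys E) (H : ℕ → E → ℝ≥0∞) (CT lam : ℝ) : Prop := ∀ m < S.mT, S.mv.IsRot m →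
  ∀ p, S.mv.jj m = 0 :: p →
    S.Hw H (p.length + 1) m ≤ ENNReal.ofReal (CT * S.mv.ph m * lam ^ S.kr m) * S.Rw p.length m

theorem HMOM_of {H : ℕ → E → ℝ≥0∞} {CT lam : ℝ} (h1 : S.HMOMp H CT lam) (h0 : S.HMOM0 H CT lam) :
    S.HMOM H CT lam := by
  intro m hm hr j hj
  obtain ⟨c, p, hp⟩ : ∃ c p, S.mv.jj m = c :: p := by
    rcases h : S.mv.jj m with _ | ⟨c, p⟩
    · rw [h] at hj; simp at hj
    · exact ⟨c, p, rfl⟩
  have hl : p.length = j := by rw [hp] at hj; simpa using hj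
  subst hl
  rcases eq_or_ne c 0 with rfl | hc
  · exact h0 m hm hr p hp
  · exact h1 m hm hr c p hp hc

/-- **(HMOM) for parents of class `≥ 1`** -/
theorem HMOMp_Hd (hε : 2 * (Real.sqrt 2 * Real.exp (-(S.qq / 4))) ≤ 1 / 2) (hk : S.kp 1 ≤ 1 / 2)
    (hkap : S.kap ≤ 1 / 8) (hth : S.th ≤ 1 / 2) {CT lam : ℝ} (hCT : 48 / S.b0 ≤ CT)
    (hlam : Real.sqrt S.kap ≤ lam) : S.HMOMp S.Hd CT lam := by
  intro m hm hr c p hj hc
  have ht := S.tm_lt_f hm.le
  have hb0 := S.b0_pos_f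
  have hph := S.mv.ph_nonneg m
  have h1 : S.Hw S.Hd (p.length + 1) m
      ≤ ENNReal.ofReal (24 / S.b0 * S.mv.ph m * Real.sqrt S.kap ^ S.kr m) * S.RwS p.length m := by
    rw [Hw_eq hm _ (Hd_meas hm.le)]
    unfold RwS
    rw [← lintegral_const_mul' _ _ ENNReal.ofReal_ne_top]
    refine lintegral_mono fun x => ?_
    simp only
    by_cases hx : x ∈ S.thru (p.length + 1) m ∩ S.OL (p.length + 1) m
    · unfold iw
      rw [indicator_of_mem hx, Pi.one_apply, one_mul, one_mul]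
      obtain ⟨h2, h3⟩ := hx
      have h4 : S.nd m x (p.length + 1) = c :: p := by rw [← hj]; exact h2
      rw [nd_succ, List.cons_eq_cons] at h4
      obtain ⟨h5, h6⟩ := h4
      rw [h6] at h5
      rw [h6]
      have hom : x ∈ S.om p m := by
        have := h3 p.length (Nat.lt_succ_self _)
        rwa [h6] at this
      exact fib_Hd_le' hε hk hkap hth hm hr hj hc h5 hom
    · unfold iw
      rw [indicator_of_notMem hx, zero_mul, zero_mul, mul_zero]
  refine h1.trans ?_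
  refine (mul_le_mul' le_rfl (RwS_le hm)).trans ?_
  rw [← mul_assoc]
  refine mul_le_mul' ?_ le_rfl
  rw [show (2 : ℝ≥0∞) = ENNReal.ofReal 2 by simp, ← ENNReal.ofReal_mul (by positivity)]
  apply ENNReal.ofReal_le_ofReal
  have h7 : Real.sqrt S.kap ^ S.kr m ≤ lam ^ S.kr m :=
    pow_le_pow_left₀ (Real.sqrt_nonneg _) hlam _
  have h8 : 0 ≤ lam ^ S.kr m := pow_nonneg ((Real.sqrt_nonneg _).trans hlam) _
  calc 24 / S.b0 * S.mv.ph m * Real.sqrt S.kap ^ S.kr m * 2
      = 48 / S.b0 * S.mv.ph m * Real.sqrt S.kap ^ S.kr m := by ring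
    _ ≤ CT * S.mv.ph m * lam ^ S.kr m := by
        have h9 : 0 ≤ CT := le_trans (by positivity) hCT
        gcongr

end Vale.Agent.P262.M2.Sys
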