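import Vale.Agent.P262.H712.BW
import Vale.Agent.P262.H712.Hm

/-!
# P262, milestone 2: the hidden moment of a rotating node through the first killed or truncated
label (any class of the parent, any label)

In the coordinates of the parent `p`: `E[Hd | x] ≤ ph * E[exw * wd a b | x]`, `a`, `b` unit vectors
orthogonal to the label space of `p`.
-/

set_option linter.all false

open MeasureTheory ProbabilityTheory Set
open scoped ENNReal RealInnerProductSpace
open Vale.Agent.P262.H118 (ON rotE rotL rotE_apply)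
open Vale.Agent.P262.H395 (fib mix Inv Fixes measurable_fib fib_tower fib_mono fib_fixes)
open Vale.Agent.P262.H847 (UI)
open Vale.Agent.P262.H713 (Pa FT fr_congr fib_congr fr_fix)
open Vale.Agent.P262.H654 (tr phi Bd InvR fr invR_fr ofReal_fr)
open Vale.Agent.P262.H712.BW (wd exw measurable_wd wd_nonneg one_le_wd fib_close_wd)

namespace Vale.Agent.P262.M2.Sys

variable {E : Type*} [NormedAddCommGroup E] [InnerProductSpace ℝ E] [FiniteDimensional ℝ E]
  [MeasurableSpace E] [BorelSpace E] {S : Sys E} {m : ℕ}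

/-- **the hidden moment at a label of the parent**, charged at the first killed or truncated
label -/
theorem fib_Hd_wd (hε : 2 * (Real.sqrt 2 * Real.exp (-(S.qq / 4))) ≤ 1 / 2) (hk : S.kp 1 ≤ 1 / 8)
    (hm : m < S.mT) (h : S.mv.IsRot m) {c : ℕ} {p : List ℕ} (hj : S.mv.jj m = c :: p) :
    ∃ a b : E, ‖a‖ = 1 ∧ ‖b‖ = 1 ∧ a ∈ (S.W p m)ᗮ ∧ b ∈ (S.W p m)ᗮ ∧ ∀ x, S.kl p m x = c →
      fib (S.W p m) (S.Hd m) x ≤ ENNReal.ofReal (S.mv.ph m) *
        fib (S.W p m) (fun y => ENNReal.ofReal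
          (exw (S.tC p m c) (fun _ => S.pf p m) y * wd a b y)) x := by
  have hl := not_leaf_of_rot hm h hj
  have ht := S.tm_lt_f hm.le
  have hL := S.labOK hm.le
  obtain ⟨θ, b, hθ1, hb1, hθW, hbW, hd⟩ := rho_disp h
  rw [hj] at hθW hbW
  rw [List.tail_cons] at hθW
  have hbW' : b ∈ (S.W p m)ᗮ := Submodule.orthogonal_le (S.W_le c p m) hbW
  set Q := S.mv.Q m (c :: p) with hQ
  have hfix : Fixes Q (S.W p m) := S.Q_fix c p m
  have hmem : ∀ e ∈ (S.W p m)ᗮ, Q e ∈ (S.W p m)ᗮ := by
    intro e he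
    rw [Submodule.mem_orthogonal] at he ⊢
    intro w hw
    have h1 : Q w = w := hfix w hw
    rw [← h1, Q.inner_map_map]
    exact he w hw
  refine ⟨Q θ, Q b, by rw [Q.norm_map, hθ1], by rw [Q.norm_map, hb1], hmem θ hθW, hmem b hbW',
    fun x hx => ?_⟩
  have hph := S.mv.ph_nonneg m
  set G : E → ℝ≥0∞ := fun y => ENNReal.ofReal
    (|S.pf (c :: p) m y - S.fup (c :: p) m y| * wd θ b y) with hG
  have hGm : Measurable G := by
    have h1 := ((S.pf_UI (c :: p) m).meas.sub (hL.fup_UI (c :: p)).meas).abs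
    exact (h1.mul (measurable_wd θ b)).ennreal_ofReal
  -- the displacement
  have e1 : fib (S.W p m) (S.Hd m) x ≤ ENNReal.ofReal (S.mv.ph m) * fib (S.W p m) G x := by
    rw [← H395.fib_mul (H395.inv_const (S.W p m) (ENNReal.ofReal (S.mv.ph m))) hGm]
    refine fib_mono (fun y => ?_) x
    unfold Hd
    rw [hj, ← ENNReal.ofReal_mul (abs_nonneg _), hG, ← ENNReal.ofReal_mul hph]
    apply ENNReal.ofReal_le_ofReal
    have h1 := hd y
    have h2 : |⟪θ, y⟫| + |⟪b, y⟫| ≤ wd θ b y := by unfold H712.BW.wd; linarith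
    have h3 := abs_nonneg (S.pf (c :: p) m y - S.fup (c :: p) m y)
    calc |S.pf (c :: p) m y - S.fup (c :: p) m y| * ‖S.rho m y - y‖
        ≤ |S.pf (c :: p) m y - S.fup (c :: p) m y| * (S.mv.ph m * wd θ b y) :=
          mul_le_mul_of_nonneg_left (h1.trans (mul_le_mul_of_nonneg_left h2 hph)) h3
      _ = _ := by ring
  refine e1.trans (mul_le_mul' le_rfl ?_)
  -- the coordinates of the parent
  have e2 : fib (S.W p m) G x = fib (S.W p m) (fun y => G (Q.symm y)) x :=
    (fib_fixes (R := Q.symm) hfix.symm hGm x).symm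
  have e3 : fib (S.W p m) (fun y => G (Q.symm y)) x = fib (S.W p m) (fun y => ENNReal.ofReal
      (|FT.pay (S.tC p m c) (fun _ => S.pf p m) y - FT.fl (S.tC p m c) (fun _ => S.pf p m) y|
        * wd (Q θ) (Q b) y)) x := by
    refine fib_congr fun y hy => ?_
    have hk' : S.kl p m y = c := by rw [hL.kl_eq hy, hx]
    have h1 : S.fup (c :: p) m (Q.symm y) = S.fld p m y := by
      rw [fld_eq_fup hm.le hl, hk']
    have h2 : S.fld p m y = FT.fl (S.tC p m c) (fun _ => S.pf p m) y := by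
      unfold fld; rw [hk']
    have h3 : wd θ b (Q.symm y) = wd (Q θ) (Q b) y := by
      unfold H712.BW.wd
      have h4 : ∀ e : E, ⟪e, Q.symm y⟫ = ⟪Q e, y⟫ := by
        intro e
        rw [← Q.inner_map_map e (Q.symm y), Q.apply_symm_apply]
      rw [h4, h4]
    rw [hG]
    simp only
    rw [h1, h2, h3, pf_symm_h]
    rfl
  rw [e2, e3]
  exact fib_close_wd (kp_nonneg 1) hk hL.good_tC S.cc_le' (fun _ => S.pf_UI p m) hL.above_tC
    (cpI_tC hε ht p c) (by rw [Q.norm_map, hθ1]) (by rw [Q.norm_map, hb1]) x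

end Vale.Agent.P262.M2.Sys
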